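import Vale.Agent.P213.Steiner.Cx

/-!
# P213: the tensor product with the interval, globes

`ivl K` is `I ⊗ K`: a positive chain map out of it is two maps and a homotopy `h` with
`d h + h d = v - u`. Both `ivl K` (for good `K`) and `globe n` are good.
-/

noncomputable section

namespace Vale.Agent.P213.Steiner

/-- Atom chains commute with injective maps of bases which commute with the differential. -/
theorem atom_map {K L : Cx} (f : ∀ q, K.B q → L.B q) (hf : ∀ q, (f q).Injective)
    (hd : ∀ q v, bd L q (Finsupp.mapDomain (f (q + 1)) v) = Finsupp.mapDomain (f q) (bd K q v))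
    {n : ℕ} (b : K.B n) (q : ℕ) :
    atomNeg L (f n b) q = Finsupp.mapDomain (f q) (atomNeg K b q) ∧
      atomPos L (f n b) q = Finsupp.mapDomain (f q) (atomPos K b q) := by
  suffices h : ∀ n (v : K.B n →₀ ℤ) q,
      downNeg L n (Finsupp.mapDomain (f n) v) q = Finsupp.mapDomain (f q) (downNeg K n v q) ∧
        downPos L n (Finsupp.mapDomain (f n) v) q = Finsupp.mapDomain (f q) (downPos K n v q) by
    simpa [atomNeg, atomPos, Finsupp.mapDomain_single] using h n (Finsupp.single b 1) q
  clear b
  intro n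
  induction n with
  | zero =>
    intro v q
    rcases q with _ | q
    · simp [downNeg, downPos]
    · simp [(down_above (Nat.succ_pos q) _).1, (down_above (Nat.succ_pos q) _).2]
  | succ n ih =>
    intro v q
    by_cases h : q = n + 1
    · subst h; simp [(down_top (n + 1) _).1, (down_top (n + 1) _).2]
    · simp only [downNeg, downPos, Function.update_of_ne h, hd, negP_mapDomain (hf n),
        posP_mapDomain (hf n)]
      exact ⟨(ih _ q).1, (ih _ q).2⟩

/-- The basis of `I ⊗ K`. -/
inductive IB (B : ℕ → Type) : ℕ → Type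
  /-- an end -/
  | pt {q : ℕ} (ε : Bool) (b : B q) : IB B q
  /-- the interior -/
  | mid {q : ℕ} (b : B q) : IB B (q + 1)

theorem IB.pt_inj {B : ℕ → Type} (q : ℕ) (ε : Bool) : (IB.pt ε : B q → IB B q).Injective :=
  fun _ _ h => by injection h

theorem IB.mid_inj {B : ℕ → Type} (q : ℕ) : (IB.mid : B q → IB B (q + 1)).Injective :=
  fun _ _ h => by injection h

variable (K : Cx)

/-- The chains at one end. -/
def ptL (ε : Bool) (q : ℕ) : (K.B q →₀ ℤ) →ₗ[ℤ] (IB K.B q →₀ ℤ) :=
  Finsupp.lmapDomain ℤ ℤ (IB.pt ε)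

/-- The interior chains. -/
def midL (q : ℕ) : (K.B q →₀ ℤ) →ₗ[ℤ] (IB K.B (q + 1) →₀ ℤ) :=
  Finsupp.lmapDomain ℤ ℤ IB.mid

/-- The interior part of the boundary of an interior element. -/
def midBd : ∀ q, (K.B q →₀ ℤ) →ₗ[ℤ] (IB K.B q →₀ ℤ)
  | 0 => 0
  | q + 1 => (midL K q).comp (bd K q)

/-- The interval tensor `K`. -/
abbrev ivl : Cx where
  B := IB K.B
  d
    | q, .pt ε b => ptL K ε q (K.d q b)
    | q, .mid b => ptL K true q (Finsupp.single b 1) - ptL K false q (Finsupp.single b 1) -
        midBd K q (Finsupp.single b 1)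
  e
    | .pt _ b => K.e b

variable {K}

theorem bd_ptL (ε : Bool) (q : ℕ) (v : K.B (q + 1) →₀ ℤ) :
    bd (ivl K) q (ptL K ε (q + 1) v) = ptL K ε q (bd K q v) := by
  induction v using Finsupp.induction_linear with
  | zero => simp
  | add a b ha hb => simp [map_add, ha, hb]
  | single b m =>
    rw [ptL, Finsupp.lmapDomain_apply, Finsupp.mapDomain_single]
    exact (bd_single (ivl K) q (IB.pt ε b) m).trans (by rw [bd_single, map_smul])

theorem bd_midL (q : ℕ) (v : K.B q →₀ ℤ) :
    bd (ivl K) q (midL K q v) = ptL K true q v - ptL K false q v - midBd K q v := by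
  induction v using Finsupp.induction_linear with
  | zero => simp
  | add a b ha hb =>
    simp only [map_add, ha, hb]
    abel

  | single b m =>
    rw [midL, Finsupp.lmapDomain_apply, Finsupp.mapDomain_single]
    refine (bd_single (ivl K) q (IB.mid b) m).trans ?_
    rw [show Finsupp.single b m = m • Finsupp.single b (1 : ℤ) by simp, map_smul, map_smul,
      map_smul, ← smul_sub, ← smul_sub]
    rfl

theorem eps_ptL (ε : Bool) (v : K.B 0 →₀ ℤ) : eps (ivl K) (ptL K ε 0 v) = eps K v := by
  induction v using Finsupp.induction_linear with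
  | zero => simp
  | add a b ha hb => simp [map_add, ha, hb]
  | single b m =>
    rw [ptL, Finsupp.lmapDomain_apply, Finsupp.mapDomain_single]
    exact (eps_single (ivl K) (IB.pt ε b) m).trans (eps_single K b m).symm

theorem mapDomain_nonneg {α β : Type} (f : α → β) {v : α →₀ ℤ} (hv : ∀ x, 0 ≤ v x) (y : β) :
    0 ≤ Finsupp.mapDomain f v y := by
  classical
  rw [Finsupp.mapDomain, Finsupp.sum, Finset.sum_apply']
  exact Finset.sum_nonneg fun x _ => by rw [Finsupp.single_apply]; split_ifs <;> simp [hv x]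

theorem bd_atom_le (hK : Good K) {n q : ℕ} (h : q ≤ n) (b : K.B n) :
    bd K q (atomNeg K b (q + 1)) = atomPos K b q - atomNeg K b q ∧
      bd K q (atomPos K b (q + 1)) = atomPos K b q - atomNeg K b q := by
  rcases h.lt_or_eq with h | rfl
  · exact hK.bd_atom h b
  · simp [atomNeg, atomPos, down_top, down_above (Nat.lt_succ_self q)]

theorem atomNeg_pt (ε : Bool) {n : ℕ} (b : K.B n) (q : ℕ) :
    atomNeg (ivl K) (IB.pt ε b) q = ptL K ε q (atomNeg K b q) ∧
      atomPos (ivl K) (IB.pt ε b) q = ptL K ε q (atomPos K b q) :=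
  atom_map (K := K) (L := ivl K) (fun _ => IB.pt ε) (fun q => IB.pt_inj q ε)
    (fun q v => bd_ptL ε q v) b q

theorem ptL_mid (ε : Bool) {q : ℕ} (v : K.B (q + 1) →₀ ℤ) (c : K.B q) :
    ptL K ε (q + 1) v (IB.mid c) = 0 :=
  Finsupp.mapDomain_of_notMem_range _ _ (by rintro ⟨x, hx⟩; cases hx)

theorem ptL_pt (ε δ : Bool) {q : ℕ} (v : K.B q →₀ ℤ) (c : K.B q) :
    ptL K ε q v (IB.pt δ c) = if δ = ε then v c else 0 := by
  split_ifs with h
  · subst h; exact Finsupp.mapDomain_apply (IB.pt_inj q δ) v c
  · exact Finsupp.mapDomain_of_notMem_range _ _ (by rintro ⟨x, hx⟩; cases hx; exact h rfl)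

theorem midL_pt (δ : Bool) {q : ℕ} (v : K.B q →₀ ℤ) (c : K.B (q + 1)) :
    midL K q v (IB.pt δ c) = 0 :=
  Finsupp.mapDomain_of_notMem_range _ _ (by rintro ⟨x, hx⟩; cases hx)

theorem midL_mid {q : ℕ} (v : K.B q →₀ ℤ) (c : K.B q) : midL K q v (IB.mid c) = v c :=
  Finsupp.mapDomain_apply (IB.mid_inj q) v c

/-- The atom chains of an interior element. -/
theorem atom_mid (hK : Good K) {n : ℕ} (b : K.B n) :
    ∀ q, q ≤ n →
      atomNeg (ivl K) (IB.mid b) (q + 1) =
          ptL K false (q + 1) (atomNeg K b (q + 1)) + midL K q (atomPos K b q) ∧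
        atomPos (ivl K) (IB.mid b) (q + 1) =
          ptL K true (q + 1) (atomPos K b (q + 1)) + midL K q (atomNeg K b q) := by
  suffices h : ∀ j q, q + j = n →
      atomNeg (ivl K) (IB.mid b) (q + 1) =
          ptL K false (q + 1) (atomNeg K b (q + 1)) + midL K q (atomPos K b q) ∧
        atomPos (ivl K) (IB.mid b) (q + 1) =
          ptL K true (q + 1) (atomPos K b (q + 1)) + midL K q (atomNeg K b q) from
    fun q hq => h (n - q) q (by omega)
  intro j
  induction j with
  | zero =>
    intro q hq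
    obtain rfl : q = n := by omega
    simp only [atomNeg, atomPos, down_top, down_above (Nat.lt_succ_self q), map_zero,
      zero_add, midL, Finsupp.lmapDomain_apply, Finsupp.mapDomain_single]
    exact ⟨trivial, trivial⟩
  | succ j ih =>
    intro q hq
    obtain ⟨hn, hp⟩ := ih (q + 1) (by omega)
    have sn := (down_step (K := ivl K) (show q + 1 < n + 1 by omega)
      (Finsupp.single (IB.mid b : (ivl K).B (n + 1)) (1 : ℤ))).1
    have sp := (down_step (K := ivl K) (show q + 1 < n + 1 by omega)
      (Finsupp.single (IB.mid b : (ivl K).B (n + 1)) (1 : ℤ))).2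
    have key : ∀ (s : Bool) (x : IB K.B (q + 1)),
        0 ≤ (ptL K s (q + 1) (atomNeg K b (q + 1)) + midL K q (atomPos K b q)) x ∧
        0 ≤ (ptL K s (q + 1) (atomPos K b (q + 1)) + midL K q (atomNeg K b q)) x := by
      intro s x
      exact ⟨add_nonneg (mapDomain_nonneg _ (fun y => (atom_nonneg b _ y).1) x)
          (mapDomain_nonneg _ (fun y => (atom_nonneg b _ y).2) x),
        add_nonneg (mapDomain_nonneg _ (fun y => (atom_nonneg b _ y).2) x)
          (mapDomain_nonneg _ (fun y => (atom_nonneg b _ y).1) x)⟩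
    have hdis : ∀ x : IB K.B (q + 1),
        (ptL K true (q + 1) (atomPos K b (q + 1)) + midL K q (atomNeg K b q)) x = 0 ∨
          (ptL K false (q + 1) (atomNeg K b (q + 1)) + midL K q (atomPos K b q)) x = 0 := by
      intro x
      cases x with
      | pt δ c => cases δ <;> simp [ptL_pt, midL_pt]
      | mid c =>
        rcases hK.atom_disjoint (show q < n by omega) b c with h | h <;>
          simp [ptL_mid, midL_mid, h]
    obtain ⟨P, N⟩ := posP_negP_sub (fun x => (key true x).2) (fun x => (key false x).1) hdis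
    obtain ⟨a1, a2⟩ := bd_atom_le hK (show q + 1 ≤ n by omega) b
    obtain ⟨c1, c2⟩ := bd_atom_le hK (show q ≤ n by omega) b
    constructor
    · refine Eq.trans ?_ N
      refine sn.trans (congrArg negP ?_)
      refine (congrArg (bd (ivl K) (q + 1)) hn).trans ((map_add (bd (ivl K) (q + 1)) _ _).trans ?_)
      rw [bd_ptL, bd_midL, midBd, LinearMap.comp_apply, a1, c2, map_sub, map_sub]
      abel
    · refine Eq.trans ?_ P
      refine sp.trans (congrArg posP ?_)
      refine (congrArg (bd (ivl K) (q + 1)) hp).trans ((map_add (bd (ivl K) (q + 1)) _ _).trans ?_)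
      rw [bd_ptL, bd_midL, midBd, LinearMap.comp_apply, a2, c1, map_sub, map_sub]
      abel

theorem atom_mid_zero (hK : Good K) {n : ℕ} (b : K.B n) :
    atomNeg (ivl K) (IB.mid b) 0 = ptL K false 0 (atomNeg K b 0) ∧
      atomPos (ivl K) (IB.mid b) 0 = ptL K true 0 (atomPos K b 0) := by
  obtain ⟨hn, hp⟩ := atom_mid hK b 0 (Nat.zero_le n)
  have sn := (down_step (K := ivl K) (Nat.succ_pos n)
    (Finsupp.single (IB.mid b : (ivl K).B (n + 1)) (1 : ℤ))).1
  have sp := (down_step (K := ivl K) (Nat.succ_pos n)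
    (Finsupp.single (IB.mid b : (ivl K).B (n + 1)) (1 : ℤ))).2
  have hdis : ∀ x : IB K.B 0, ptL K true 0 (atomPos K b 0) x = 0 ∨
      ptL K false 0 (atomNeg K b 0) x = 0 := by
    intro x
    cases x with
    | pt δ c => cases δ <;> simp [ptL_pt]
  obtain ⟨P, N⟩ := posP_negP_sub (fun x => mapDomain_nonneg _ (fun y => (atom_nonneg b _ y).2) x)
    (fun x => mapDomain_nonneg _ (fun y => (atom_nonneg b _ y).1) x) hdis
  obtain ⟨c1, c2⟩ := bd_atom_le hK (Nat.zero_le n) b
  constructor
  · refine Eq.trans ?_ N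
    refine sn.trans (congrArg negP ?_)
    refine (congrArg (bd (ivl K) 0) hn).trans ((map_add (bd (ivl K) 0) _ _).trans ?_)
    rw [bd_ptL, bd_midL, midBd, LinearMap.zero_apply, c1, map_sub]
    show _ = ptL K true 0 (atomPos K b 0) - ptL K false 0 (atomNeg K b 0)
    abel
  · refine Eq.trans ?_ P
    refine sp.trans (congrArg posP ?_)
    refine (congrArg (bd (ivl K) 0) hp).trans ((map_add (bd (ivl K) 0) _ _).trans ?_)
    rw [bd_ptL, bd_midL, midBd, LinearMap.zero_apply, c2, map_sub]
    show _ = ptL K true 0 (atomPos K b 0) - ptL K false 0 (atomNeg K b 0)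
    abel

/-- The layer of an element of `I ⊗ K` and the element of `K` under it. -/
def ivlKey : (Σ q, IB K.B q) → Fin 3 × (Σ q, K.B q)
  | ⟨q, .pt false b⟩ => (0, ⟨q, b⟩)
  | ⟨q, .pt true b⟩ => (2, ⟨q, b⟩)
  | ⟨_, .mid (q := q) b⟩ => (1, ⟨q, b⟩)

theorem ivlKey_inj : (ivlKey (K := K)).Injective := by
  rintro ⟨q, x⟩ ⟨q', y⟩ h
  cases x with
  | pt ε b =>
    cases y with
    | pt δ c =>
      cases ε <;> cases δ <;> simp [ivlKey] at h <;> obtain ⟨rfl, h⟩ := h <;> cases h <;> rfl
    | mid c => cases ε <;> simp [ivlKey] at h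
  | mid b =>
    cases y with
    | pt δ c => cases δ <;> simp [ivlKey] at h
    | mid c => simp [ivlKey] at h; obtain ⟨rfl, h⟩ := h; cases h; rfl

/-- Layers, the middle one reversed. -/
def layerLt {α : Type} (r : α → α → Prop) (x y : Fin 3 × α) : Prop :=
  x.1 < y.1 ∨ (x.1 = y.1 ∧ if x.1 = 1 then r y.2 x.2 else r x.2 y.2)

theorem isStrictTotalOrder_layerLt {α : Type} {r : α → α → Prop}
    (h : IsStrictTotalOrder α r) : IsStrictTotalOrder (Fin 3 × α) (layerLt r) where
  trichotomous x y h₁ h₂ := by
    unfold layerLt at h₁ h₂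
    push Not at h₁ h₂
    have e : x.1 = y.1 := le_antisymm h₂.1 h₁.1
    refine Prod.ext e ?_
    have a := h₁.2 e
    have b := h₂.2 e.symm
    rw [← e] at b
    split_ifs at a b
    exacts [h.trichotomous _ _ b a, h.trichotomous _ _ a b]
  irrefl x hx := by
    rcases hx with hx | ⟨-, hx⟩
    · exact lt_irrefl _ hx
    · split_ifs at hx <;> exact h.irrefl _ hx
  trans x y z hxy hyz := by
    rcases hxy with a | ⟨a, a'⟩ <;> rcases hyz with b | ⟨b, b'⟩
    · exact Or.inl (a.trans b)
    · exact Or.inl (b ▸ a)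
    · exact Or.inl (a ▸ b)
    · refine Or.inr ⟨a.trans b, ?_⟩
      rw [← a] at b'
      split_ifs at a' b' ⊢
      exacts [h.trans _ _ _ b' a', h.trans _ _ _ a' b']

theorem good_ivl (hK : Good K) : Good (ivl K) where
  bd_bd q b := by
    cases b with
    | pt ε b =>
      refine (bd_ptL ε q (K.d (q + 1) b)).trans ?_
      rw [hK.bd_bd]
      exact map_zero _
    | mid b =>
      show bd (ivl K) q (ptL K true (q + 1) (Finsupp.single b 1) -
        ptL K false (q + 1) (Finsupp.single b 1) - midL K q (bd K q (Finsupp.single b 1))) = 0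
      refine (map_sub (bd (ivl K) q) _ _).trans ?_
      rw [map_sub (bd (ivl K) q), bd_ptL, bd_ptL, bd_midL]
      cases q with
      | zero => simp [midBd]
      | succ q => simp [midBd, LinearMap.comp_apply, bd_single, hK.bd_bd]
  eps_bd b := by
    cases b with
    | pt ε b => exact (eps_ptL ε _).trans (hK.eps_bd b)
    | mid b =>
      show eps (ivl K) (ptL K true 0 (Finsupp.single b 1) -
        ptL K false 0 (Finsupp.single b 1) - midBd K 0 (Finsupp.single b 1)) = 0
      simp only [midBd, LinearMap.zero_apply, sub_zero, map_sub]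
      rw [eps_ptL, eps_ptL, sub_self]
  unit_neg n x := by
    cases x with
    | pt ε b => rw [(atomNeg_pt ε b 0).1]; exact (eps_ptL ε _).trans (hK.unit_neg _ b)
    | mid b => rw [(atom_mid_zero hK b).1]; exact (eps_ptL false _).trans (hK.unit_neg _ b)
  unit_pos n x := by
    cases x with
    | pt ε b => rw [(atomNeg_pt ε b 0).2]; exact (eps_ptL ε _).trans (hK.unit_pos _ b)
    | mid b => rw [(atom_mid_zero hK b).2]; exact (eps_ptL true _).trans (hK.unit_pos _ b)
  order := by
    obtain ⟨r, hr, hd⟩ := hK.order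
    refine ⟨fun x y => layerLt r (ivlKey x) (ivlKey y),
      isStrictTotalOrder_key (isStrictTotalOrder_layerLt hr) _ ivlKey_inj, ?_⟩
    intro q x y
    cases x with
    | pt ε b =>
      have hz : (ivl K).d q (IB.pt ε b) = ptL K ε q (K.d q b) := rfl
      cases y with
      | pt δ c =>
        rw [hz, ptL_pt]
        split_ifs with h
        · subst h
          constructor <;> intro hlt <;> cases δ <;>
            simp [layerLt, ivlKey, (hd q b c).1, (hd q b c).2, hlt]
        · simp
      | mid c => rw [hz, ptL_mid]; simp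
    | mid b =>
      have hz : (ivl K).d q (IB.mid b) = ptL K true q (Finsupp.single b 1) -
        ptL K false q (Finsupp.single b 1) - midBd K q (Finsupp.single b 1) := rfl
      cases y with
      | pt δ c =>
        have hm : midBd K q (Finsupp.single b 1) (IB.pt δ c) = 0 := by
          cases q with
          | zero => simp [midBd]
          | succ q => exact midL_pt δ _ c
        rw [hz, Finsupp.sub_apply, Finsupp.sub_apply, hm, ptL_pt, ptL_pt]
        have hs : (0 : ℤ) ≤ Finsupp.single b 1 c := by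
          classical
          rw [Finsupp.single_apply]; split_ifs <;> simp
        cases δ <;> simp [layerLt, ivlKey] <;> omega
      | mid c =>
        rw [hz, Finsupp.sub_apply, Finsupp.sub_apply, ptL_mid, ptL_mid, midBd,
          LinearMap.comp_apply, midL_mid, bd_single, one_smul]
        constructor <;> intro h <;>
          simp [layerLt, ivlKey] at h ⊢ <;>
          first
          | exact (hd _ b c).2 (by omega)
          | exact (hd _ b c).1 (by omega)

/-- The complex of the `n`-globe. -/
abbrev globe (n : ℕ) : Cx where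
  B q := {ε : Bool // q < n ∨ (q = n ∧ ε = false)}
  d q b := Finsupp.single ⟨true, Or.inl (by rcases b.2 with h | ⟨h, -⟩ <;> omega)⟩ 1 -
    Finsupp.single ⟨false, Or.inl (by rcases b.2 with h | ⟨h, -⟩ <;> omega)⟩ 1
  e _ := 1

theorem bd_globe (n q : ℕ) (b : (globe n).B (q + 1)) (v w : (globe n).B q) (hv : v.1 = true)
    (hw : w.1 = false) :
    bd (globe n) q (Finsupp.single b 1) = Finsupp.single v 1 - Finsupp.single w 1 := by
  refine ((bd_single ..).trans (one_smul _ _)).trans ?_
  show Finsupp.single _ 1 - Finsupp.single _ 1 = _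
  congr 2 <;> exact Subtype.ext (by simp [hv, hw])

theorem atom_globe (n : ℕ) {m : ℕ} (b : (globe n).B m) :
    ∀ j q, q + j + 1 = m → ∀ v w : (globe n).B q, v.1 = true → w.1 = false →
      atomNeg (globe n) b q = Finsupp.single w 1 ∧ atomPos (globe n) b q = Finsupp.single v 1 := by
  intro j q hq v w hv hw
  have hne : v ≠ w := fun e => by rw [e, hw] at hv; exact absurd hv (by simp)
  have hnn : ∀ (u x : (globe n).B q), 0 ≤ (Finsupp.single u (1 : ℤ)) x := fun u x => by
    classical
    rw [Finsupp.single_apply]; split_ifs <;> simp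
  have hdis : ∀ x, (Finsupp.single v (1 : ℤ)) x = 0 ∨ (Finsupp.single w (1 : ℤ)) x = 0 := by
    intro x
    classical
    by_cases h : v = x
    · exact Or.inr (Finsupp.single_eq_of_ne (h ▸ hne))
    · exact Or.inl (Finsupp.single_eq_of_ne (Ne.symm h))
  obtain ⟨P, N⟩ := posP_negP_sub (hnn v) (hnn w) hdis
  have s := down_step (K := globe n) (show q < m by omega) (Finsupp.single b (1 : ℤ))
  simp only [atomNeg, atomPos, s]
  induction j generalizing q with
  | zero =>
    obtain rfl : q + 1 = m := by omega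
    rw [(down_top (K := globe n) _ _).1, (down_top (K := globe n) _ _).2,
      bd_globe n q b v w hv hw]
    exact ⟨N, P⟩
  | succ j ih =>
    have hlt : q + 1 < n := by rcases b.2 with h | ⟨h, -⟩ <;> omega
    let v' : (globe n).B (q + 1) := ⟨true, Or.inl hlt⟩
    let w' : (globe n).B (q + 1) := ⟨false, Or.inl hlt⟩
    have hne' : v' ≠ w' := fun e => by simpa [v', w'] using congrArg Subtype.val e
    have hnn' : ∀ (u x : (globe n).B (q + 1)), 0 ≤ (Finsupp.single u (1 : ℤ)) x := fun u x => by
      classical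
      rw [Finsupp.single_apply]; split_ifs <;> simp
    have hdis' : ∀ x, (Finsupp.single v' (1 : ℤ)) x = 0 ∨
        (Finsupp.single w' (1 : ℤ)) x = 0 := by
      intro x
      classical
      by_cases h : v' = x
      · exact Or.inr (Finsupp.single_eq_of_ne (h ▸ hne'))
      · exact Or.inl (Finsupp.single_eq_of_ne (Ne.symm h))
    obtain ⟨P', N'⟩ := posP_negP_sub (hnn' v') (hnn' w') hdis'
    have s' := down_step (K := globe n) (show q + 1 < m by omega) (Finsupp.single b (1 : ℤ))
    obtain ⟨a, c⟩ := ih (q + 1) (by omega) v' w' rfl rfl hne' hnn' hdis' P' N' s'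
    rw [s'.1, s'.2, a, c, bd_globe n q v' v w hv hw, bd_globe n q w' v w hv hw]
    exact ⟨N, P⟩

/-- The position of a basis element of the globe. -/
def globeKey (n : ℕ) (x : Σ q, (globe n).B q) : ℕ :=
  if x.2.1 then 2 * n + 1 - x.1 else x.1

theorem globeKey_inj (n : ℕ) : (globeKey n).Injective := by
  rintro ⟨q, ε, hq⟩ ⟨q', δ, hq'⟩ h
  have e : ε = δ ∧ q = q' := by
    cases ε <;> cases δ <;> simp [globeKey] at h hq hq' ⊢ <;> omega
  obtain ⟨rfl, rfl⟩ := e
  rfl

theorem good_globe (n : ℕ) : Good (globe n) where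
  bd_bd q b := by
    have hq : q + 1 < n ∨ q + 2 = n := by rcases b.2 with h | ⟨h, -⟩ <;> omega
    let v : (globe n).B q := ⟨true, Or.inl (by omega)⟩
    let w : (globe n).B q := ⟨false, Or.inl (by omega)⟩
    show bd (globe n) q (Finsupp.single _ 1 - Finsupp.single _ 1) = 0
    rw [map_sub, bd_globe n q _ v w rfl rfl, bd_globe n q _ v w rfl rfl, sub_self]
  eps_bd b := by
    show eps (globe n) (Finsupp.single _ 1 - Finsupp.single _ 1) = 0
    rw [map_sub, eps_single, eps_single]
    simp
  unit_neg m b := by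
    rcases Nat.eq_zero_or_pos m with rfl | hm
    · simp only [atomNeg, down_top]
      exact (eps_single (globe n) b 1).trans (one_mul 1)
    · have h0 : 0 < n := by rcases b.2 with h | ⟨h, -⟩ <;> omega
      rw [(atom_globe n b (m - 1) 0 (by omega) ⟨true, Or.inl h0⟩ ⟨false, Or.inl h0⟩ rfl rfl).1,
        eps_single]
      simp
  unit_pos m b := by
    rcases Nat.eq_zero_or_pos m with rfl | hm
    · simp only [atomPos, down_top]
      exact (eps_single (globe n) b 1).trans (one_mul 1)
    · have h0 : 0 < n := by rcases b.2 with h | ⟨h, -⟩ <;> omega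
      rw [(atom_globe n b (m - 1) 0 (by omega) ⟨true, Or.inl h0⟩ ⟨false, Or.inl h0⟩ rfl rfl).2,
        eps_single]
      simp
  order := by
    refine ⟨fun x y => globeKey n x < globeKey n y,
      isStrictTotalOrder_key inferInstance _ (globeKey_inj n), ?_⟩
    intro q b a
    classical
    show ((Finsupp.single _ 1 - Finsupp.single _ 1 : (globe n).B q →₀ ℤ) a < 0 → _) ∧
      (0 < (Finsupp.single _ 1 - Finsupp.single _ 1 : (globe n).B q →₀ ℤ) a → _)
    rw [Finsupp.sub_apply, Finsupp.single_apply, Finsupp.single_apply]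
    obtain ⟨ε, ha⟩ := a
    obtain ⟨δ, hb⟩ := b
    constructor <;> intro h <;> cases ε <;> cases δ <;>
      simp [globeKey] at h ha hb ⊢ <;> omega

end Vale.Agent.P213.Steiner
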