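import Vale.Agent.P213.Steiner.Cx

/-!
# P213: augmented directed complexes with basis and their omega-categories
-/

open CategoryTheory

noncomputable section

namespace Vale.Agent.P213.Steiner

theorem bd_apply (K : Cx) (q : ℕ) (v : K.B (q + 1) →₀ ℤ) :
    bd K q v = v.sum fun c m => m • K.d q c := Finsupp.linearCombination_apply ..

theorem eps_apply (K : Cx) (v : K.B 0 →₀ ℤ) : eps K v = v.sum fun b m => m * K.e b :=
  Finsupp.linearCombination_apply ..

variable {K : Cx}

/-- A cell: a double sequence of positive chains. -/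
@[ext]
structure Cell (K : Cx) : Type where
  neg : ∀ q, K.B q →₀ ℤ
  pos : ∀ q, K.B q →₀ ℤ
  neg_nonneg : ∀ q c, 0 ≤ neg q c
  pos_nonneg : ∀ q c, 0 ≤ pos q c
  bounded : ∃ N, ∀ q, N ≤ q → neg q = 0 ∧ pos q = 0
  aug_neg : eps K (neg 0) = 1
  aug_pos : eps K (pos 0) = 1
  bdry_neg : ∀ q, bd K q (neg (q + 1)) = pos q - neg q
  bdry_pos : ∀ q, bd K q (pos (q + 1)) = pos q - neg q

namespace Cell

variable (i : ℕ) (x y : Cell K)

/-- The source of dimension `i`. -/
def src : Cell K where
  neg q := if q ≤ i then x.neg q else 0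
  pos q := if q < i then x.pos q else if q = i then x.neg q else 0
  neg_nonneg q c := by split_ifs <;> simp [x.neg_nonneg]
  pos_nonneg q c := by split_ifs <;> simp [x.neg_nonneg, x.pos_nonneg]
  bounded := ⟨i + 1, fun q h => by simp [show ¬ q ≤ i by omega, show ¬ q < i by omega,
    show ¬ q = i by omega]⟩
  aug_neg := by simp [x.aug_neg]
  aug_pos := by split_ifs <;> first | exact x.aug_pos | exact x.aug_neg | omega
  bdry_neg q := by
    rcases lt_trichotomy q i with h | h | h
    · simp [show q + 1 ≤ i by omega, h, h.le, x.bdry_neg]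
    · subst h; simp
    · simp [show ¬ q + 1 ≤ i by omega, show ¬ q ≤ i by omega, show ¬ q < i by omega,
        show ¬ q = i by omega]
  bdry_pos q := by
    rcases lt_trichotomy q i with h | h | h
    · rcases (show q + 1 ≤ i by omega).lt_or_eq with h' | h'
      · simp [h', h, h.le, x.bdry_pos]
      · subst h'; simp [x.bdry_neg]
    · subst h; simp
    · simp [show ¬ q + 1 < i by omega, show ¬ q + 1 = i by omega, show ¬ q ≤ i by omega,
        show ¬ q < i by omega, show ¬ q = i by omega]

/-- The target of dimension `i`. -/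
def tgt : Cell K where
  neg q := if q < i then x.neg q else if q = i then x.pos q else 0
  pos q := if q ≤ i then x.pos q else 0
  neg_nonneg q c := by split_ifs <;> simp [x.neg_nonneg, x.pos_nonneg]
  pos_nonneg q c := by split_ifs <;> simp [x.pos_nonneg]
  bounded := ⟨i + 1, fun q h => by simp [show ¬ q ≤ i by omega, show ¬ q < i by omega,
    show ¬ q = i by omega]⟩
  aug_neg := by split_ifs <;> first | exact x.aug_pos | exact x.aug_neg | omega
  aug_pos := by simp [x.aug_pos]
  bdry_neg q := by
    rcases lt_trichotomy q i with h | h | h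
    · rcases (show q + 1 ≤ i by omega).lt_or_eq with h' | h'
      · simp [h', h, h.le, x.bdry_neg]
      · subst h'; simp [x.bdry_pos]
    · subst h; simp
    · simp [show ¬ q + 1 < i by omega, show ¬ q + 1 = i by omega, show ¬ q ≤ i by omega,
        show ¬ q < i by omega, show ¬ q = i by omega]
  bdry_pos q := by
    rcases lt_trichotomy q i with h | h | h
    · simp [show q + 1 ≤ i by omega, h, h.le, x.bdry_pos]
    · subst h; simp
    · simp [show ¬ q + 1 ≤ i by omega, show ¬ q ≤ i by omega, show ¬ q < i by omega,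
        show ¬ q = i by omega]

theorem eq_of_tgt_eq_src (h : x.tgt i = y.src i) :
    x.pos i = y.neg i ∧ ∀ q < i, x.neg q = y.neg q ∧ x.pos q = y.pos q := by
  refine ⟨?_, fun q hq => ⟨?_, ?_⟩⟩
  · simpa [tgt, src] using congrArg (fun z => z.pos i) h
  · simpa [tgt, src, hq, hq.le] using congrArg (fun z => z.neg q) h
  · simpa [tgt, src, hq, hq.le] using congrArg (fun z => z.pos q) h

open Classical in
/-- The composite along dimension `i` (the first argument when the pair is not composable). -/
def comp : Cell K :=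
  if h : x.tgt i = y.src i then
    { neg := fun q => if q ≤ i then x.neg q else x.neg q + y.neg q
      pos := fun q => if q < i then x.pos q else if q = i then y.pos q else x.pos q + y.pos q
      neg_nonneg := fun q c => by
        have := x.neg_nonneg q c; have := y.neg_nonneg q c
        split_ifs <;> simp <;> omega
      pos_nonneg := fun q c => by
        have := x.pos_nonneg q c; have := y.pos_nonneg q c
        split_ifs <;> simp <;> omega
      bounded := by
        obtain ⟨N, hN⟩ := x.bounded; obtain ⟨M, hM⟩ := y.bounded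
        refine ⟨max (max N M) (i + 1), fun q hq => ?_⟩
        simp [hN q (by omega), hM q (by omega), show ¬ q ≤ i by omega, show ¬ q < i by omega,
          show ¬ q = i by omega]
      aug_neg := by simp [x.aug_neg]
      aug_pos := by split_ifs <;> first | exact x.aug_pos | exact y.aug_pos | omega
      bdry_neg := fun q => by
        obtain ⟨hp, hlow⟩ := eq_of_tgt_eq_src i x y h
        rcases lt_trichotomy q i with hq | hq | hq
        · simp [show q + 1 ≤ i by omega, hq, hq.le, x.bdry_neg]
        · subst hq; simp [map_add, x.bdry_neg, y.bdry_neg, hp]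
        · simp [show ¬ q + 1 ≤ i by omega, show ¬ q ≤ i by omega, show ¬ q < i by omega,
            show ¬ q = i by omega, map_add, x.bdry_neg, y.bdry_neg]; abel
      bdry_pos := fun q => by
        obtain ⟨hp, hlow⟩ := eq_of_tgt_eq_src i x y h
        rcases lt_trichotomy q i with hq | hq | hq
        · rcases (show q + 1 ≤ i by omega).lt_or_eq with h' | h'
          · simp [h', hq, hq.le, x.bdry_pos]
          · subst h'
            simp [y.bdry_pos, (hlow q (by omega)).1, (hlow q (by omega)).2]
        · subst hq; simp [map_add, x.bdry_pos, y.bdry_pos, hp]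
        · simp [show ¬ q + 1 < i by omega, show ¬ q + 1 = i by omega, show ¬ q ≤ i by omega,
            show ¬ q < i by omega, show ¬ q = i by omega, map_add, x.bdry_pos, y.bdry_pos]; abel }
  else x

end Cell

namespace Cell

theorem comp_of_eq {i : ℕ} {x y : Cell K} (h : x.tgt i = y.src i) (q : ℕ) :
    (comp i x y).neg q = (if q ≤ i then x.neg q else x.neg q + y.neg q) ∧
      (comp i x y).pos q =
        if q < i then x.pos q else if q = i then y.pos q else x.pos q + y.pos q := by
  rw [comp, dif_pos h]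
  exact ⟨rfl, rfl⟩

/-- Two cells with the same entries are equal. -/
theorem ext' {x y : Cell K} (h : ∀ q, x.neg q = y.neg q ∧ x.pos q = y.pos q) : x = y :=
  Cell.ext (funext fun q => (h q).1) (funext fun q => (h q).2)

theorem src_comp (i : ℕ) (x y : Cell K) (h : x.tgt i = y.src i) :
    (comp i x y).src i = x.src i := ext' fun q => by
  obtain ⟨h1, h2⟩ := comp_of_eq h q
  constructor <;> (simp only [src, h1, h2]; split_ifs <;> first | rfl | omega)

theorem tgt_comp (i : ℕ) (x y : Cell K) (h : x.tgt i = y.src i) :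
    (comp i x y).tgt i = y.tgt i := ext' fun q => by
  obtain ⟨h1, h2⟩ := comp_of_eq h q
  obtain ⟨hp, hlow⟩ := eq_of_tgt_eq_src i x y h
  constructor <;> simp only [tgt, h1, h2] <;> rcases lt_trichotomy q i with hq | hq | hq
  · simp [hq, hq.le, (hlow q hq).1]
  · subst hq; simp
  · simp [show ¬ q < i by omega, show ¬ q = i by omega]
  · simp [hq, hq.le, (hlow q hq).2]
  · subst hq; simp
  · simp [show ¬ q ≤ i by omega]

theorem src_lo {i j : ℕ} (h : i < j) (x : Cell K) :
    (x.src j).src i = x.src i ∧ (x.tgt j).src i = x.src i ∧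
      (x.src j).tgt i = x.tgt i ∧ (x.tgt j).tgt i = x.tgt i := by
  refine ⟨?_, ?_, ?_, ?_⟩ <;> refine ext' fun q => ⟨?_, ?_⟩ <;> simp only [src, tgt] <;>
    split_ifs <;> first | rfl | omega

theorem src_hi {i j : ℕ} (h : i < j) (x : Cell K) :
    (x.src i).src j = x.src i ∧ (x.tgt i).src j = x.tgt i ∧
      (x.src i).tgt j = x.src i ∧ (x.tgt i).tgt j = x.tgt i := by
  refine ⟨?_, ?_, ?_, ?_⟩ <;> refine ext' fun q => ⟨?_, ?_⟩ <;> simp only [src, tgt] <;>
    split_ifs <;> first | rfl | omega

theorem src_self (i : ℕ) (x : Cell K) :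
    (x.src i).src i = x.src i ∧ (x.tgt i).src i = x.tgt i ∧
      (x.src i).tgt i = x.src i ∧ (x.tgt i).tgt i = x.tgt i := by
  refine ⟨?_, ?_, ?_, ?_⟩ <;> refine ext' fun q => ⟨?_, ?_⟩ <;> simp only [src, tgt] <;>
    split_ifs <;> first | rfl | omega

theorem composable_hi {i j : ℕ} (hij : i < j) {x y : Cell K} (h : x.tgt i = y.src i) :
    (x.src j).tgt i = (y.src j).src i ∧ (x.tgt j).tgt i = (y.tgt j).src i := by
  obtain ⟨-, -, h1, h2⟩ := src_lo hij x
  obtain ⟨h3, h4, -, -⟩ := src_lo hij y
  exact ⟨by rw [h1, h3, h], by rw [h2, h4, h]⟩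

theorem src_comp_hi {i j : ℕ} (hij : i < j) (x y : Cell K) (h : x.tgt i = y.src i) :
    (comp i x y).src j = comp i (x.src j) (y.src j) := ext' fun q => by
  obtain ⟨h1, h2⟩ := comp_of_eq h q
  obtain ⟨h3, h4⟩ := comp_of_eq (composable_hi hij h).1 q
  rw [h3, h4]
  simp only [src, h1, h2]
  constructor <;> split_ifs <;> first | rfl | omega

theorem tgt_comp_hi {i j : ℕ} (hij : i < j) (x y : Cell K) (h : x.tgt i = y.src i) :
    (comp i x y).tgt j = comp i (x.tgt j) (y.tgt j) := ext' fun q => by
  obtain ⟨h1, h2⟩ := comp_of_eq h q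
  obtain ⟨h3, h4⟩ := comp_of_eq (composable_hi hij h).2 q
  rw [h3, h4]
  simp only [tgt, h1, h2]
  constructor <;> split_ifs <;> first | rfl | omega

theorem unit_left (i : ℕ) (x : Cell K) : comp i (x.src i) x = x := ext' fun q => by
  obtain ⟨h1, h2⟩ := comp_of_eq (show (x.src i).tgt i = x.src i from (src_self i x).2.2.1) q
  rw [h1, h2]
  simp only [src]
  constructor <;> split_ifs <;> first | rfl | omega | simp

theorem unit_right (i : ℕ) (x : Cell K) : comp i x (x.tgt i) = x := ext' fun q => by
  have hc : x.tgt i = (x.tgt i).src i := (src_self i x).2.1.symm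
  obtain ⟨h1, h2⟩ := comp_of_eq hc q
  rw [h1, h2]
  simp only [tgt]
  constructor <;> split_ifs <;> first | rfl | omega | simp

theorem assoc (i : ℕ) (x y z : Cell K) (h : x.tgt i = y.src i) (h' : y.tgt i = z.src i) :
    comp i (comp i x y) z = comp i x (comp i y z) := ext' fun q => by
  obtain ⟨a1, a2⟩ := comp_of_eq h q
  obtain ⟨b1, b2⟩ := comp_of_eq h' q
  obtain ⟨c1, c2⟩ := comp_of_eq (show (comp i x y).tgt i = z.src i by rw [tgt_comp i x y h, h']) q
  obtain ⟨d1, d2⟩ := comp_of_eq (show x.tgt i = (comp i y z).src i by rw [src_comp i y z h', h]) q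
  rw [c1, c2, d1, d2, a1, a2, b1, b2]
  constructor <;> split_ifs <;> first | rfl | omega | abel

theorem interchange {i j : ℕ} (hij : i < j) (x y z w : Cell K) (hxy : x.tgt i = y.src i)
    (hxz : x.tgt j = z.src j) (hyw : y.tgt j = w.src j) :
    comp j (comp i x y) (comp i z w) = comp i (comp j x z) (comp j y w) := ext' fun q => by
  have hz : z.tgt i = x.tgt i := by
    rw [← (src_lo hij z).2.2.1, ← hxz, (src_lo hij x).2.2.2]
  have hw : w.src i = y.src i := by
    rw [← (src_lo hij w).1, ← hyw, (src_lo hij y).2.1]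
  have hzw : z.tgt i = w.src i := by rw [hz, hw, hxy]
  have hc1 : (comp i x y).tgt j = (comp i z w).src j := by
    rw [tgt_comp_hi hij x y hxy, src_comp_hi hij z w hzw, hxz, hyw]
  have hxz' : (comp j x z).tgt i = x.tgt i := by
    rw [← (src_lo hij (comp j x z)).2.2.1, src_comp j x z hxz, (src_lo hij x).2.2.1]
  have hyw' : (comp j y w).src i = y.src i := by
    rw [← (src_lo hij (comp j y w)).1, src_comp j y w hyw, (src_lo hij y).1]
  obtain ⟨a1, a2⟩ := comp_of_eq hxy q
  obtain ⟨b1, b2⟩ := comp_of_eq hzw q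
  obtain ⟨c1, c2⟩ := comp_of_eq hxz q
  obtain ⟨d1, d2⟩ := comp_of_eq hyw q
  obtain ⟨e1, e2⟩ := comp_of_eq hc1 q
  obtain ⟨f1, f2⟩ := comp_of_eq (show (comp j x z).tgt i = (comp j y w).src i by
    rw [hxz', hyw', hxy]) q
  rw [e1, e2, f1, f2, a1, a2, b1, b2, c1, c2, d1, d2]
  constructor <;> split_ifs <;> first | rfl | omega | abel

end Cell

/-- Steiner's omega-category. -/
def nu (K : Cx) : OmegaCat where
  Cell := Cell K
  src := Cell.src
  tgt := Cell.tgt
  comp := Cell.comp
  src_src i x := (Cell.src_self i x).1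
  src_tgt i x := (Cell.src_self i x).2.1
  tgt_src i x := (Cell.src_self i x).2.2.1
  tgt_tgt i x := (Cell.src_self i x).2.2.2
  src_src_lo h x := (Cell.src_lo h x).1
  src_tgt_lo h x := (Cell.src_lo h x).2.1
  tgt_src_lo h x := (Cell.src_lo h x).2.2.1
  tgt_tgt_lo h x := (Cell.src_lo h x).2.2.2
  src_src_hi h x := (Cell.src_hi h x).1
  src_tgt_hi h x := (Cell.src_hi h x).2.1
  tgt_src_hi h x := (Cell.src_hi h x).2.2.1
  tgt_tgt_hi h x := (Cell.src_hi h x).2.2.2
  finite_dim x := by
    obtain ⟨N, hN⟩ := x.bounded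
    refine ⟨N, Cell.ext' fun q => ?_⟩
    rcases lt_trichotomy q N with h | h | h
    · simp [Cell.src, h, h.le]
    · subst h; simp [Cell.src, hN q le_rfl]
    · simp [Cell.src, hN q h.le, show ¬ q ≤ N by omega, show ¬ q < N by omega,
        show ¬ q = N by omega]
  src_comp := Cell.src_comp
  tgt_comp := Cell.tgt_comp
  src_comp_hi h := Cell.src_comp_hi h
  tgt_comp_hi h := Cell.tgt_comp_hi h
  unit_left := Cell.unit_left
  unit_right := Cell.unit_right
  assoc := Cell.assoc
  interchange h := Cell.interchange h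


/-- Positive chain maps. -/
structure CxHom (K L : Cx) : Type where
  f : ∀ q, K.B q → (L.B q →₀ ℤ)
  nonneg : ∀ q b c, 0 ≤ f q b c
  comm : ∀ q (b : K.B (q + 1)),
    ((f (q + 1) b).sum fun c m => m • L.d q c) = (K.d q b).sum fun c m => m • f q c
  aug : ∀ b : K.B 0, ((f 0 b).sum fun c m => m * L.e c) = K.e b

namespace CxHom

variable {K L M : Cx}

@[ext]
theorem ext {f g : CxHom K L} (h : ∀ q b, f.f q b = g.f q b) : f = g := by
  cases f
  cases g
  congr
  exact funext fun q => funext fun b => h q b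

/-- The map on chains. -/
def app (f : CxHom K L) (q : ℕ) : (K.B q →₀ ℤ) →ₗ[ℤ] (L.B q →₀ ℤ) :=
  Finsupp.linearCombination ℤ (f.f q)

theorem app_apply (f : CxHom K L) (q : ℕ) (v : K.B q →₀ ℤ) :
    f.app q v = v.sum fun c m => m • f.f q c := Finsupp.linearCombination_apply ..

theorem app_single (f : CxHom K L) (q : ℕ) (b : K.B q) (m : ℤ) :
    f.app q (Finsupp.single b m) = m • f.f q b := Finsupp.linearCombination_single ..

theorem app_nonneg (f : CxHom K L) (q : ℕ) {v : K.B q →₀ ℤ} (hv : ∀ c, 0 ≤ v c) (c : L.B q) :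
    0 ≤ f.app q v c := by
  rw [app_apply, Finsupp.sum, Finsupp.coe_finsetSum, Finset.sum_apply]
  exact Finset.sum_nonneg fun a _ => by simpa using mul_nonneg (hv a) (f.nonneg q a c)

theorem bd_app (f : CxHom K L) (q : ℕ) (v : K.B (q + 1) →₀ ℤ) :
    bd L q (f.app (q + 1) v) = f.app q (bd K q v) := by
  refine LinearMap.congr_fun (?_ : (bd L q).comp (f.app (q + 1)) = (f.app q).comp (bd K q)) v
  refine Finsupp.lhom_ext fun b m => ?_
  simp only [LinearMap.comp_apply, app_single, map_smul, bd_single]
  rw [bd_apply, app_apply, f.comm q b]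

theorem eps_app (f : CxHom K L) (v : K.B 0 →₀ ℤ) : eps L (f.app 0 v) = eps K v := by
  refine LinearMap.congr_fun (?_ : (eps L).comp (f.app 0) = eps K) v
  refine Finsupp.lhom_ext fun b m => ?_
  simp only [LinearMap.comp_apply, app_single, map_smul, eps_single, smul_eq_mul]
  rw [eps_apply, f.aug b]

/-- The identity. -/
def id (K : Cx) : CxHom K K where
  f q b := Finsupp.single b 1
  nonneg q b c := (Finsupp.single_nonneg.2 zero_le_one : (0 : K.B q →₀ ℤ) ≤ Finsupp.single b 1) c
  comm q b := by
    rw [Finsupp.sum_single_index (by simp), one_smul]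
    conv_lhs => rw [← Finsupp.sum_single (K.d q b)]
    simp
  aug b := by rw [Finsupp.sum_single_index (by simp), one_mul]

/-- The composite. -/
def andThen (f : CxHom K L) (g : CxHom L M) : CxHom K M where
  f q b := g.app q (f.f q b)
  nonneg q b c := g.app_nonneg q (fun a => f.nonneg q b a) c
  comm q b := by
    have h1 : bd M q (g.app (q + 1) (f.f (q + 1) b)) = g.app q (f.app q (K.d q b)) := by
      rw [bd_app, bd_apply, f.comm q b, ← app_apply]
    rw [← bd_apply, h1, app_apply f, map_finsuppSum]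
    exact Finsupp.sum_congr fun c _ => map_smul _ _ _
  aug b := by
    rw [← eps_apply, eps_app, eps_apply, f.aug b]

end CxHom

/-- The image of a cell. -/
def Cell.map {K L : Cx} (f : CxHom K L) (x : Cell K) : Cell L where
  neg q := f.app q (x.neg q)
  pos q := f.app q (x.pos q)
  neg_nonneg q := f.app_nonneg q (x.neg_nonneg q)
  pos_nonneg q := f.app_nonneg q (x.pos_nonneg q)
  bounded := by
    obtain ⟨N, hN⟩ := x.bounded
    exact ⟨N, fun q hq => by simp [hN q hq]⟩
  aug_neg := (f.eps_app _).trans x.aug_neg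
  aug_pos := (f.eps_app _).trans x.aug_pos
  bdry_neg q := by rw [f.bd_app, x.bdry_neg, map_sub]
  bdry_pos q := by rw [f.bd_app, x.bdry_pos, map_sub]

theorem Cell.map_src {K L : Cx} (f : CxHom K L) (i : ℕ) (x : Cell K) :
    (x.src i).map f = (x.map f).src i := Cell.ext' fun q => by
  constructor <;> simp only [Cell.map, Cell.src] <;> split_ifs <;> simp

theorem Cell.map_tgt {K L : Cx} (f : CxHom K L) (i : ℕ) (x : Cell K) :
    (x.tgt i).map f = (x.map f).tgt i := Cell.ext' fun q => by
  constructor <;> simp only [Cell.map, Cell.tgt] <;> split_ifs <;> simp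

theorem Cell.map_comp {K L : Cx} (f : CxHom K L) (i : ℕ) (x y : Cell K)
    (h : x.tgt i = y.src i) :
    (Cell.comp i x y).map f = Cell.comp i (x.map f) (y.map f) := Cell.ext' fun q => by
  have h' : (x.map f).tgt i = (y.map f).src i := by rw [← map_tgt, ← map_src, h]
  obtain ⟨a1, a2⟩ := comp_of_eq h q
  obtain ⟨b1, b2⟩ := comp_of_eq h' q
  rw [b1, b2]
  simp only [Cell.map, a1, a2]
  constructor <;> split_ifs <;> simp

/-- The functor of a chain map. -/
def nuMap {K L : Cx} (f : CxHom K L) : nu K ⟶ nu L where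
  toFun := Cell.map f
  map_src := Cell.map_src f
  map_tgt := Cell.map_tgt f
  map_comp := Cell.map_comp f

theorem nuMap_id (K : Cx) : nuMap (CxHom.id K) = 𝟙 (nu K) := by
  refine OmegaCat.Hom.ext (funext fun x => Cell.ext' fun q => ?_)
  have key : ∀ v, (CxHom.id K).app q v = v := fun v =>
    LinearMap.congr_fun (Finsupp.lhom_ext (φ := (CxHom.id K).app q)
      (ψ := LinearMap.id) fun b m => by simp [CxHom.id, CxHom.app_single]) v
  exact ⟨key _, key _⟩

theorem nuMap_andThen {K L M : Cx} (f : CxHom K L) (g : CxHom L M) :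
    nuMap (f.andThen g) = nuMap f ≫ nuMap g := by
  refine OmegaCat.Hom.ext (funext fun x => Cell.ext' fun q => ?_)
  have key : ∀ v, (f.andThen g).app q v = g.app q (f.app q v) := fun v =>
    LinearMap.congr_fun (Finsupp.lhom_ext (φ := (f.andThen g).app q)
      (ψ := (g.app q).comp (f.app q)) fun b m => by simp [CxHom.andThen, CxHom.app_single]) v
  exact ⟨key _, key _⟩

end Vale.Agent.P213.Steiner
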