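import Vale.Agent.P213.Steiner.Tensor
import Vale.Agent.P213.Steiner.Nu

/-!
# P213: chain maps out of `I ⊗ K`

`ofHtpy u v h` is the map of a positive homotopy `d h + h d = v - u`; the two ends, the projection
and the functoriality of `ivl`.
-/

noncomputable section

namespace Vale.Agent.P213.Steiner

variable {K L M : Cx}

theorem CxHom.app_ext {f g : CxHom K L} (h : ∀ q v, f.app q v = g.app q v) : f = g :=
  CxHom.ext fun q b => by
    simpa [CxHom.app_single] using h q (Finsupp.single b 1)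

theorem CxHom.app_eq_of (f : CxHom K L) (φ : ∀ q, (K.B q →₀ ℤ) →ₗ[ℤ] (L.B q →₀ ℤ))
    (h : ∀ q b, f.f q b = φ q (Finsupp.single b 1)) (q : ℕ) : f.app q = φ q :=
  Finsupp.lhom_ext fun b m => by
    rw [CxHom.app_single, h, show Finsupp.single b m = m • Finsupp.single b (1 : ℤ) by simp,
      map_smul]

theorem CxHom.andThen_app (f : CxHom K L) (g : CxHom L M) (q : ℕ) (v : K.B q →₀ ℤ) :
    (f.andThen g).app q v = g.app q (f.app q v) :=
  LinearMap.congr_fun (CxHom.app_eq_of (f.andThen g) (fun q => (g.app q).comp (f.app q))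
    (fun q b => by simp [CxHom.andThen, CxHom.app_single]) q) v

theorem CxHom.id_app (q : ℕ) (v : K.B q →₀ ℤ) : (CxHom.id K).app q v = v :=
  LinearMap.congr_fun (CxHom.app_eq_of (CxHom.id K) (fun _ => LinearMap.id)
    (fun _ _ => rfl) q) v

theorem CxHom.id_andThen (f : CxHom K L) : (CxHom.id K).andThen f = f :=
  CxHom.app_ext fun q v => by rw [CxHom.andThen_app, CxHom.id_app]

theorem CxHom.andThen_id (f : CxHom K L) : f.andThen (CxHom.id L) = f :=
  CxHom.app_ext fun q v => by rw [CxHom.andThen_app, CxHom.id_app]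

theorem CxHom.andThen_assoc {N : Cx} (f : CxHom K L) (g : CxHom L M) (h : CxHom M N) :
    (f.andThen g).andThen h = f.andThen (g.andThen h) :=
  CxHom.app_ext fun q v => by simp only [CxHom.andThen_app]

/-- The values of a homotopy, extended linearly. -/
def hLin (h : ∀ q, K.B q → (L.B (q + 1) →₀ ℤ)) (q : ℕ) :
    (K.B q →₀ ℤ) →ₗ[ℤ] (L.B (q + 1) →₀ ℤ) :=
  Finsupp.linearCombination ℤ (h q)

theorem hLin_single (h : ∀ q, K.B q → (L.B (q + 1) →₀ ℤ)) (q : ℕ) (b : K.B q) (m : ℤ) :
    hLin h q (Finsupp.single b m) = m • h q b := Finsupp.linearCombination_single ..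

/-- The values of a map out of `I ⊗ K`. -/
def htpyFun (u v : ∀ q, K.B q → (L.B q →₀ ℤ)) (h : ∀ q, K.B q → (L.B (q + 1) →₀ ℤ)) :
    ∀ q, IB K.B q → (L.B q →₀ ℤ)
  | q, .pt false b => u q b
  | q, .pt true b => v q b
  | _, .mid b => h _ b

theorem sum_ptL (u v : ∀ q, K.B q → (L.B q →₀ ℤ)) (h : ∀ q, K.B q → (L.B (q + 1) →₀ ℤ))
    (ε : Bool) (q : ℕ) (w : K.B q →₀ ℤ) :
    Finsupp.linearCombination ℤ (htpyFun u v h q) (ptL K ε q w) =
      Finsupp.linearCombination ℤ (if ε then v q else u q) w := by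
  rw [ptL, Finsupp.lmapDomain_apply, Finsupp.linearCombination_mapDomain]
  cases ε <;> rfl

theorem sum_midL (u v : ∀ q, K.B q → (L.B q →₀ ℤ)) (h : ∀ q, K.B q → (L.B (q + 1) →₀ ℤ))
    (q : ℕ) (w : K.B q →₀ ℤ) :
    Finsupp.linearCombination ℤ (htpyFun u v h (q + 1)) (midL K q w) = hLin h q w := by
  rw [midL, Finsupp.lmapDomain_apply, Finsupp.linearCombination_mapDomain]
  rfl

/-- A positive homotopy from `u` to `v` as a map out of `I ⊗ K`. -/
def ofHtpy (u v : CxHom K L) (h : ∀ q, K.B q → (L.B (q + 1) →₀ ℤ))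
    (hpos : ∀ q b c, 0 ≤ h q b c)
    (h0 : ∀ b, bd L 0 (h 0 b) = v.f 0 b - u.f 0 b)
    (h1 : ∀ q b, bd L (q + 1) (h (q + 1) b) + hLin h q (K.d q b) =
      v.f (q + 1) b - u.f (q + 1) b) : CxHom (ivl K) L where
  f := htpyFun u.f v.f h
  nonneg q x := by
    cases x with
    | pt ε b => cases ε; exacts [u.nonneg q b, v.nonneg q b]
    | mid b => exact hpos _ b
  comm q x := by
    rw [← bd_apply]
    refine Eq.trans ?_ (Finsupp.linearCombination_apply ..)
    cases x with
    | pt ε b =>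
      refine Eq.trans ?_ (sum_ptL u.f v.f h ε q (K.d q b)).symm
      cases ε
      exacts [(bd_apply L q _).trans ((u.comm q b).trans (Finsupp.linearCombination_apply ..).symm),
        (bd_apply L q _).trans ((v.comm q b).trans (Finsupp.linearCombination_apply ..).symm)]
    | mid b =>
      show bd L q (h q b) = _
      show _ = Finsupp.linearCombination ℤ (htpyFun u.f v.f h q)
        (ptL K true q (Finsupp.single b 1) - ptL K false q (Finsupp.single b 1) -
          midBd K q (Finsupp.single b 1))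
      rw [map_sub, map_sub, sum_ptL, sum_ptL, Finsupp.linearCombination_single,
        Finsupp.linearCombination_single, one_smul, one_smul]
      cases q with
      | zero => simp [midBd, h0]
      | succ q =>
        rw [midBd, LinearMap.comp_apply, sum_midL, bd_single, one_smul]
        simp only [← h1 q b, if_true, Bool.false_eq_true, if_false]
        abel
  aug x := by
    cases x with
    | pt ε b => cases ε; exacts [u.aug b, v.aug b]

section

variable (u v : CxHom K L) (h : ∀ q, K.B q → (L.B (q + 1) →₀ ℤ)) (hpos : ∀ q b c, 0 ≤ h q b c)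
  (h0 : ∀ b, bd L 0 (h 0 b) = v.f 0 b - u.f 0 b)
  (h1 : ∀ q b, bd L (q + 1) (h (q + 1) b) + hLin h q (K.d q b) = v.f (q + 1) b - u.f (q + 1) b)

theorem ofHtpy_app_pt (ε : Bool) (q : ℕ) (w : K.B q →₀ ℤ) :
    (ofHtpy u v h hpos h0 h1).app q (ptL K ε q w) = if ε then v.app q w else u.app q w := by
  refine (sum_ptL u.f v.f h ε q w).trans ?_
  cases ε <;> rfl

theorem ofHtpy_app_mid (q : ℕ) (w : K.B q →₀ ℤ) :
    (ofHtpy u v h hpos h0 h1).app (q + 1) (midL K q w) = hLin h q w :=
  sum_midL u.f v.f h q w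

end

/-- The inclusion of an end. -/
def ivlEnd (K : Cx) (ε : Bool) : CxHom K (ivl K) where
  f q b := Finsupp.single (IB.pt ε b) 1
  nonneg q b c := by
    classical
    rw [Finsupp.single_apply]; split_ifs <;> simp
  comm q b := by
    rw [Finsupp.sum_single_index (by simp), one_smul]
    show ptL K ε q (K.d q b) = _
    rw [ptL, Finsupp.lmapDomain_apply, Finsupp.mapDomain]
    exact Finsupp.sum_congr fun c _ => (Finsupp.smul_single_one _ _).symm
  aug b := by
    rw [Finsupp.sum_single_index (by simp), one_mul]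

theorem ivlEnd_app (ε : Bool) (q : ℕ) (v : K.B q →₀ ℤ) : (ivlEnd K ε).app q v = ptL K ε q v :=
  LinearMap.congr_fun (CxHom.app_eq_of (ivlEnd K ε) (fun q => ptL K ε q)
    (fun q b => by simp [ivlEnd, ptL, Finsupp.mapDomain_single]) q) v

theorem end_ofHtpy (u v : CxHom K L) (h : ∀ q, K.B q → (L.B (q + 1) →₀ ℤ)) (hpos h0 h1) :
    (ivlEnd K false).andThen (ofHtpy u v h hpos h0 h1) = u ∧
      (ivlEnd K true).andThen (ofHtpy u v h hpos h0 h1) = v := by
  constructor <;> refine CxHom.app_ext fun q w => ?_ <;>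
    rw [CxHom.andThen_app, ivlEnd_app, ofHtpy_app_pt] <;> rfl

/-- Two maps out of `I ⊗ K` agreeing on both ends and on the interior are equal. -/
theorem ivl_ext {f g : CxHom (ivl K) L}
    (hp : ∀ ε q (w : K.B q →₀ ℤ), f.app q (ptL K ε q w) = g.app q (ptL K ε q w))
    (hm : ∀ q (w : K.B q →₀ ℤ), f.app (q + 1) (midL K q w) = g.app (q + 1) (midL K q w)) :
    f = g := by
  refine CxHom.ext fun q x => ?_
  cases x with
  | pt ε b =>
    have := hp ε q (Finsupp.single b 1)
    rw [ptL, Finsupp.lmapDomain_apply, Finsupp.mapDomain_single] at this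
    exact (one_smul ℤ _).symm.trans ((f.app_single q (IB.pt ε b) 1).symm.trans
      (this.trans ((g.app_single q (IB.pt ε b) 1).trans (one_smul ℤ _))))
  | mid b =>
    have := hm _ (Finsupp.single b 1)
    rw [midL, Finsupp.lmapDomain_apply, Finsupp.mapDomain_single] at this
    exact (one_smul ℤ _).symm.trans ((f.app_single _ (IB.mid b) 1).symm.trans
      (this.trans ((g.app_single _ (IB.mid b) 1).trans (one_smul ℤ _))))

theorem ivlMap_h (f : CxHom K L) (q : ℕ) (v : K.B q →₀ ℤ) :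
    hLin (L := ivl L) (fun q b => midL L q (f.f q b)) q v = midL L q (f.app q v) :=
  LinearMap.congr_fun (Finsupp.lhom_ext (φ := hLin (L := ivl L) (fun q b => midL L q (f.f q b)) q)
    (ψ := (midL L q).comp (f.app q)) fun b m => by
      rw [hLin_single, LinearMap.comp_apply, CxHom.app_single, map_smul]) v

/-- The map `I ⊗ f`. -/
def ivlMap (f : CxHom K L) : CxHom (ivl K) (ivl L) :=
  ofHtpy (f.andThen (ivlEnd L false)) (f.andThen (ivlEnd L true))
    (fun q b => midL L q (f.f q b))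
    (fun q b c => mapDomain_nonneg _ (fun y => f.nonneg q b y) c)
    (fun b => by
      rw [bd_midL, midBd, LinearMap.zero_apply, sub_zero]
      exact (congrArg₂ (· - ·) (ivlEnd_app true 0 _) (ivlEnd_app false 0 _)).symm)
    (fun q b => by
      have hd : f.app q (K.d q b) = bd L q (f.f (q + 1) b) := by
        rw [bd_apply, f.comm q b, CxHom.app_apply]
      rw [ivlMap_h, bd_midL, midBd, LinearMap.comp_apply, hd, sub_add_cancel]
      exact (congrArg₂ (· - ·) (ivlEnd_app true (q + 1) _) (ivlEnd_app false (q + 1) _)).symm)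

theorem ivlMap_pt (f : CxHom K L) (ε : Bool) (q : ℕ) (w : K.B q →₀ ℤ) :
    (ivlMap f).app q (ptL K ε q w) = ptL L ε q (f.app q w) := by
  refine (ofHtpy_app_pt _ _ _ _ _ _ ε q w).trans ?_
  cases ε <;> exact (CxHom.andThen_app f _ q w).trans (ivlEnd_app _ q _)

theorem ivlMap_mid (f : CxHom K L) (q : ℕ) (w : K.B q →₀ ℤ) :
    (ivlMap f).app (q + 1) (midL K q w) = midL L q (f.app q w) := by
  exact (ofHtpy_app_mid _ _ _ _ _ _ q w).trans (ivlMap_h f q w)

theorem ivlMap_id (K : Cx) : ivlMap (CxHom.id K) = CxHom.id (ivl K) :=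
  ivl_ext (fun ε q w => by rw [ivlMap_pt, CxHom.id_app, CxHom.id_app])
    (fun q w => by rw [ivlMap_mid, CxHom.id_app, CxHom.id_app])

theorem ivlMap_andThen (f : CxHom K L) (g : CxHom L M) :
    ivlMap (f.andThen g) = (ivlMap f).andThen (ivlMap g) :=
  ivl_ext (fun ε q w => by
      rw [ivlMap_pt, CxHom.andThen_app, CxHom.andThen_app, ivlMap_pt, ivlMap_pt])
    (fun q w => by
      rw [ivlMap_mid, CxHom.andThen_app, CxHom.andThen_app, ivlMap_mid, ivlMap_mid])

theorem end_ivlMap (f : CxHom K L) (ε : Bool) :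
    (ivlEnd K ε).andThen (ivlMap f) = f.andThen (ivlEnd L ε) :=
  CxHom.app_ext fun q w => by
    rw [CxHom.andThen_app, CxHom.andThen_app, ivlEnd_app, ivlEnd_app, ivlMap_pt]

theorem hLin_zero (q : ℕ) (v : K.B q →₀ ℤ) :
    hLin (L := L) (fun q (_ : K.B q) => (0 : L.B (q + 1) →₀ ℤ)) q v = 0 :=
  LinearMap.congr_fun (Finsupp.lhom_ext
    (φ := hLin (L := L) (fun q (_ : K.B q) => (0 : L.B (q + 1) →₀ ℤ)) q) (ψ := 0)
    fun b m => by simp [hLin_single]) v

/-- The projection `I ⊗ K ⟶ K`. -/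
def ivlProj (K : Cx) : CxHom (ivl K) K :=
  ofHtpy (CxHom.id K) (CxHom.id K) (fun _ _ => 0) (fun _ _ _ => le_rfl) (fun b => by simp)
    (fun q b => by simp [hLin_zero])

theorem ivlProj_pt (ε : Bool) (q : ℕ) (w : K.B q →₀ ℤ) :
    (ivlProj K).app q (ptL K ε q w) = w := by
  rw [ivlProj, ofHtpy_app_pt]
  cases ε <;> simp [CxHom.id_app]

theorem ivlProj_mid (q : ℕ) (w : K.B q →₀ ℤ) : (ivlProj K).app (q + 1) (midL K q w) = 0 := by
  rw [ivlProj, ofHtpy_app_mid, hLin_zero]

theorem end_ivlProj (K : Cx) (ε : Bool) : (ivlEnd K ε).andThen (ivlProj K) = CxHom.id K :=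
  CxHom.app_ext fun q w => by
    rw [CxHom.andThen_app, ivlEnd_app, ivlProj_pt, CxHom.id_app]

theorem ivlMap_proj (f : CxHom K L) :
    (ivlMap f).andThen (ivlProj L) = (ivlProj K).andThen f :=
  ivl_ext (fun ε q w => by
      rw [CxHom.andThen_app, CxHom.andThen_app, ivlMap_pt, ivlProj_pt, ivlProj_pt])
    (fun q w => by
      rw [CxHom.andThen_app, CxHom.andThen_app, ivlMap_mid, ivlProj_mid, ivlProj_mid, map_zero])

end Vale.Agent.P213.Steiner
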