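import Vale.Agent.P213.Steiner.Nu

/-!
# P213: the complex of chains of a poset
-/

open CategoryTheory

noncomputable section

namespace Vale.Agent.P213.Steiner

variable (E : Type) [PartialOrder E]

theorem bd_chainsCx (q : ℕ) (v : Chain E (q + 1) →₀ ℤ) :
    bd (chainsCx E) q v = bdry q v := by
  refine DFunLike.congr_fun (?_ : (bd (chainsCx E) q).toAddMonoidHom = bdry q) v
  refine Finsupp.addHom_ext fun c m => ?_
  refine (bd_single _ _ _ _).trans ?_
  change m • bdry q (Finsupp.single c 1) = bdry q (Finsupp.single c m)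
  rw [← map_zsmul]
  exact congrArg (bdry q) ((Finsupp.smul_single _ _ _).trans (congrArg _ (mul_one m)))

theorem eps_chainsCx (v : Chain E 0 →₀ ℤ) : eps (chainsCx E) v = aug v := by
  refine DFunLike.congr_fun (?_ : (eps (chainsCx E)).toAddMonoidHom = aug) v
  refine Finsupp.addHom_ext fun c m => ?_
  refine (eps_single _ _ _).trans ?_
  change m * 1 = Finsupp.liftAddHom (fun _ => AddMonoidHom.id ℤ) (Finsupp.single (c : Chain E 0) m)
  simp

variable {E}

/-- A cell of the chains complex as a table. -/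
def toTable (x : Cell (chainsCx E)) : Table E where
  neg := x.neg
  pos := x.pos
  neg_nonneg := x.neg_nonneg
  pos_nonneg := x.pos_nonneg
  bounded := x.bounded
  aug_neg := (eps_chainsCx E _).symm.trans x.aug_neg
  aug_pos := (eps_chainsCx E _).symm.trans x.aug_pos
  bdry_neg q := (bd_chainsCx E q _).symm.trans (x.bdry_neg q)
  bdry_pos q := (bd_chainsCx E q _).symm.trans (x.bdry_pos q)

/-- A table as a cell of the chains complex. -/
def ofTable (x : Table E) : Cell (chainsCx E) where
  neg := x.neg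
  pos := x.pos
  neg_nonneg := x.neg_nonneg
  pos_nonneg := x.pos_nonneg
  bounded := x.bounded
  aug_neg := (eps_chainsCx E _).trans x.aug_neg
  aug_pos := (eps_chainsCx E _).trans x.aug_pos
  bdry_neg q := (bd_chainsCx E q _).trans (x.bdry_neg q)
  bdry_pos q := (bd_chainsCx E q _).trans (x.bdry_pos q)

theorem toTable_comp (i : ℕ) (x y : Cell (chainsCx E)) (h : x.tgt i = y.src i) :
    toTable (Cell.comp i x y) = Table.comp i (toTable x) (toTable y) := Table.ext' fun q => by
  have h' : (toTable x).tgt i = (toTable y).src i :=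
    Table.ext' fun q => ⟨congrArg (fun z => z.neg q) h, congrArg (fun z => z.pos q) h⟩
  obtain ⟨a1, a2⟩ := Cell.comp_of_eq h q
  obtain ⟨b1, b2⟩ := Table.comp_of_eq h' q
  rw [b1, b2]
  exact ⟨a1, a2⟩

theorem ofTable_comp (i : ℕ) (x y : Table E) (h : x.tgt i = y.src i) :
    ofTable (Table.comp i x y) = Cell.comp i (ofTable x) (ofTable y) := Cell.ext' fun q => by
  have h' : (ofTable x).tgt i = (ofTable y).src i :=
    Cell.ext' fun q => ⟨congrArg (fun z => z.neg q) h, congrArg (fun z => z.pos q) h⟩
  obtain ⟨a1, a2⟩ := Table.comp_of_eq h q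
  obtain ⟨b1, b2⟩ := Cell.comp_of_eq h' q
  rw [b1, b2]
  exact ⟨a1, a2⟩

/-- Steiner's omega-category of chains is the oriental. -/
def nuChains (E : Type) [PartialOrder E] : nu (chainsCx E) ≅ ori E where
  hom := ⟨toTable, fun _ _ => rfl, fun _ _ => rfl, toTable_comp⟩
  inv := ⟨ofTable, fun _ _ => rfl, fun _ _ => rfl, ofTable_comp⟩
  hom_inv_id := rfl
  inv_hom_id := rfl

end Vale.Agent.P213.Steiner
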