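import Vale.Agent.P213.Steiner.Cx
import Vale.Agent.P213.Chains.AltOrder

/-!
# P213: the complex of chains of a linear order is good

The atom chains of a simplex are computed on the lists of its vertices (written from the top),
by the cone recursion.
-/

noncomputable section

namespace Vale.Agent.P213.Steiner

variable {E : Type}

/-- The signs. -/
def sg (n : ℕ) : ℤ := (-1) ^ n

theorem sg_succ (n : ℕ) : sg (n + 1) = -sg n := by simp [sg, pow_succ]

/-- The boundary on lists written from the top. -/
def dL : List E → (List E →₀ ℤ)
  | [] => 0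
  | v :: l => Finsupp.mapDomain (List.cons v) (dL l) + sg l.length • Finsupp.single l 1

/-- The linear extension of `dL`. -/
def bdL : (List E →₀ ℤ) →ₗ[ℤ] (List E →₀ ℤ) := Finsupp.linearCombination ℤ dL

theorem bdL_single (l : List E) (m : ℤ) : bdL (Finsupp.single l m) = m • dL l :=
  Finsupp.linearCombination_single ..

theorem dL_length (l : List E) : ∀ x ∈ (dL l).support, x.length + 1 = l.length := by
  classical
  induction l with
  | nil => simp [dL]
  | cons v l ih =>
    intro x hx
    rw [dL] at hx
    rcases Finset.mem_union.1 (Finsupp.support_add hx) with h | h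
    · obtain ⟨y, hy, rfl⟩ := Finset.mem_image.1 (Finsupp.mapDomain_support h)
      simp [ih y hy]
    · have := Finsupp.support_single_subset (Finsupp.support_smul h)
      simp_all

theorem bdL_cons (v : E) (k : ℕ) (X : List E →₀ ℤ) (hX : ∀ x ∈ X.support, x.length = k) :
    bdL (Finsupp.mapDomain (List.cons v) X) =
      Finsupp.mapDomain (List.cons v) (bdL X) + sg k • X := by
  classical
  induction X using Finsupp.induction with
  | zero => simp
  | single_add a m f ha hm ih =>
    have hmem : ∀ x, x = a ∨ x ∈ f.support → x ∈ (Finsupp.single a m + f).support := by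
      intro x hx
      rw [Finsupp.mem_support_iff, Finsupp.add_apply]
      rcases hx with rfl | hx
      · rw [Finsupp.notMem_support_iff.1 ha]; simpa using hm
      · rw [Finsupp.single_apply, if_neg (fun e : a = x => ha (e ▸ hx))]
        simpa using hx
    have hk : a.length = k := hX a (hmem a (Or.inl rfl))
    rw [Finsupp.mapDomain_add, map_add, ih (fun x hx => hX x (hmem x (Or.inr hx))),
      map_add, Finsupp.mapDomain_add, Finsupp.mapDomain_single, bdL_single, bdL_single, dL,
      smul_add, hk, smul_add (sg k) _ f]
    rw [show sg k • Finsupp.single a m = m • (sg k • Finsupp.single a (1 : ℤ)) by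
      simp [mul_comm], Finsupp.mapDomain_smul]
    abel

theorem bdL_dL (l : List E) : bdL (dL l) = 0 := by
  induction l with
  | nil => simp [dL]
  | cons v l ih =>
    rcases l with _ | ⟨u, l⟩
    · simp [dL, bdL_single]
    · rw [dL, map_add, bdL_cons v l.length _ (fun x hx => by
        simpa using dL_length (u :: l) x hx), ih, map_smul, bdL_single, one_smul]
      simp [sg_succ]

/-- Whether the part without the top vertex is present. -/
def par (ε : Bool) (s : ℕ) : Bool := (decide (Even s)) == !ε

/-- The faces with `s` vertices of the negative (`false`) or positive (`true`) side. -/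
def side : Bool → List E → ℕ → (List E →₀ ℤ)
  | _, [], 0 => Finsupp.single [] 1
  | _, [], _ + 1 => 0
  | ε, _ :: _, 0 => if ε then Finsupp.single [] 1 else 0
  | ε, v :: l, s + 1 =>
      (if par ε s then side ε l (s + 1) else 0) + Finsupp.mapDomain (List.cons v) (side ε l s)

theorem side_pos_zero (l : List E) : side true l 0 = Finsupp.single [] 1 := by
  cases l <;> simp [side]

theorem side_above (ε : Bool) (l : List E) : ∀ {s : ℕ}, l.length < s → side ε l s = 0 := by
  induction l with
  | nil =>
    intro s h
    obtain ⟨k, rfl⟩ : ∃ k, s = k + 1 := ⟨s - 1, by simp at h; omega⟩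
    simp [side]
  | cons v l ih =>
    intro s h
    obtain ⟨k, rfl⟩ : ∃ k, s = k + 1 := ⟨s - 1, by simp at h; omega⟩
    simp at h
    simp [side, ih (show l.length < k + 1 by omega), ih (show l.length < k by omega)]

theorem side_top (ε : Bool) (l : List E) : side ε l l.length = Finsupp.single l 1 := by
  induction l with
  | nil => simp [side]
  | cons v l ih => simp [side, ih, side_above ε l (Nat.lt_succ_self _)]

theorem side_supp (ε : Bool) (l : List E) :
    ∀ s, ∀ x ∈ (side ε l s).support, x.length = s ∧ ∀ y ∈ x, y ∈ l := by
  classical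
  induction l with
  | nil => intro s x hx; cases s <;> simp_all [side]
  | cons v l ih =>
    intro s x hx
    cases s with
    | zero => cases ε <;> simp [side] at hx; subst hx; simp
    | succ s =>
      rw [side] at hx
      rcases Finset.mem_union.1 (Finsupp.support_add hx) with h | h
      · split_ifs at h
        · obtain ⟨a, b⟩ := ih (s + 1) x h
          exact ⟨a, fun y hy => List.mem_cons_of_mem _ (b y hy)⟩
        · simp at h
      · obtain ⟨z, hz, rfl⟩ := Finset.mem_image.1 (Finsupp.mapDomain_support h)
        obtain ⟨a, b⟩ := ih s z hz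
        refine ⟨by simp [a], fun y hy => ?_⟩
        rcases List.mem_cons.1 hy with rfl | hy
        · simp
        · exact List.mem_cons_of_mem _ (b y hy)

theorem side_nonneg (ε : Bool) (l : List E) : ∀ s x, 0 ≤ side ε l s x := by
  classical
  induction l with
  | nil => intro s x; cases s <;> simp [side, Finsupp.single_apply]; split_ifs <;> simp
  | cons v l ih =>
    intro s x
    cases s with
    | zero => cases ε <;> simp [side, Finsupp.single_apply]; split_ifs <;> simp
    | succ s =>
      rw [side, Finsupp.add_apply]
      refine add_nonneg (by split_ifs <;> simp [ih]) ?_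
      rw [Finsupp.mapDomain, Finsupp.sum, Finset.sum_apply']
      exact Finset.sum_nonneg fun y _ => by
        rw [Finsupp.single_apply]; split_ifs <;> simp [ih]

theorem side_disjoint (l : List E) (hl : l.Nodup) :
    ∀ s, s < l.length → ∀ x, side true l s x = 0 ∨ side false l s x = 0 := by
  classical
  induction l with
  | nil => simp
  | cons v l ih =>
    intro s hs x
    obtain ⟨hv, hl⟩ := List.nodup_cons.1 hl
    cases s with
    | zero => exact Or.inr (by simp [side])
    | succ s =>
      simp only [List.length_cons, Nat.add_lt_add_iff_right] at hs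
      have h1 : ∀ ε, (∃ y, List.cons v y = x) → side ε l (s + 1) x = 0 := by
        rintro ε ⟨y, rfl⟩
        by_contra h
        exact hv ((side_supp ε l _ _ (Finsupp.mem_support_iff.2 h)).2 v (by simp))
      have h2 : ∀ ε, (¬ ∃ y, List.cons v y = x) →
          Finsupp.mapDomain (List.cons v) (side ε l s) x = 0 :=
        fun ε h => Finsupp.mapDomain_of_notMem_range _ _ h
      simp only [side, Finsupp.add_apply]
      by_cases hx : ∃ y, List.cons v y = x
      · obtain ⟨y, rfl⟩ := hx
        simp only [apply_ite (fun z : List E →₀ ℤ => z (v :: y)), h1 _ ⟨y, rfl⟩,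
          Finsupp.coe_zero, Pi.zero_apply, ite_self, zero_add,
          Finsupp.mapDomain_apply List.cons_injective]
        exact ih hl s hs y
      · rw [h2 _ hx, h2 _ hx]
        by_cases hp : Even s <;> simp [par, hp]

theorem bdL_side (l : List E) :
    ∀ ε s, bdL (side ε l (s + 1)) = side true l s - side false l s := by
  induction l with
  | nil => intro ε s; cases s <;> simp [side]
  | cons v l ih =>
    intro ε s
    have hhom : ∀ s, ∀ x ∈ (side ε l s).support, x.length = s :=
      fun s x hx => (side_supp ε l s x hx).1
    rw [side, map_add, bdL_cons v s _ (hhom s)]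
    cases s with
    | zero =>
      have h0 : bdL (side ε l 0) = 0 := by
        cases l <;> cases ε <;> simp [side, bdL_single, dL]
      rw [h0, Finsupp.mapDomain_zero, zero_add]
      cases ε <;> simp [side, par, sg, side_pos_zero, ih]
    | succ s =>
      rw [ih, Finsupp.mapDomain_sub]
      rcases Nat.even_or_odd s with hp | hp
      · cases ε <;> simp [side, par, Nat.even_add_one, hp, sg, pow_succ, hp.neg_one_pow, ih] <;>
          abel
      · have hp' : ¬ Even s := Nat.not_even_iff_odd.2 hp
        cases ε <;> simp [side, par, Nat.even_add_one, hp', sg, pow_succ, hp.neg_one_pow, ih] <;>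
          abel

/-- The total coefficient. -/
def tot : (List E →₀ ℤ) →ₗ[ℤ] ℤ := Finsupp.linearCombination ℤ (fun _ => 1)

theorem tot_mapDomain {α : Type} (f : α → List E) (v : α →₀ ℤ) :
    tot (Finsupp.mapDomain f v) = Finsupp.linearCombination ℤ (fun _ => (1 : ℤ)) v := by
  simp [tot, Finsupp.linearCombination_mapDomain, Function.comp_def]

theorem tot_side (l : List E) (h : l ≠ []) : ∀ ε, tot (side ε l 1) = 1 := by
  induction l with
  | nil => exact absurd rfl h
  | cons v l ih =>
    intro ε
    rw [side, map_add, tot_mapDomain]
    rcases l with _ | ⟨u, l⟩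
    · cases ε <;> simp [side, par, tot]
    · have := ih (by simp) ε
      cases ε
      · simp [par, this]; simp [side]
      · simp [par, side_pos_zero]

/-! ## Chains as lists -/

variable [LinearOrder E]

/-- The vertices from the top. -/
def toL {q : ℕ} (c : Chain E q) : List E := List.ofFn (c.1 ∘ Fin.rev)

theorem toL_inj (q : ℕ) : (toL : Chain E q → List E).Injective := by
  intro c c' h
  apply Subtype.ext
  funext i
  simpa using congrFun (List.ofFn_injective h) i.rev

theorem toL_nodup {q : ℕ} (c : Chain E q) : (toL c).Nodup :=
  List.nodup_ofFn.2 (c.2.injective.comp Fin.rev_injective)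

theorem toL_length {q : ℕ} (c : Chain E q) : (toL c).length = q + 1 := by simp [toL]

omit [LinearOrder E] in
theorem dL_ofFn (m : ℕ) (f : Fin (m + 1) → E) :
    dL (List.ofFn f) =
      ∑ j : Fin (m + 1), sg (m - j) • Finsupp.single (List.ofFn (f ∘ j.succAbove)) 1 := by
  induction m with
  | zero => simp [dL, sg]
  | succ m ih =>
    rw [List.ofFn_succ, dL, ih, Finsupp.mapDomain_finsetSum, add_comm]
    conv_rhs => rw [Fin.sum_univ_succ]
    congr 1
    · simp [Function.comp_def]
    · refine Finset.sum_congr rfl fun j _ => ?_
      rw [Finsupp.mapDomain_smul, Finsupp.mapDomain_single]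
      congr 2
      · simp
      · rw [List.ofFn_succ]
        simp [Function.comp_def]

theorem toL_bdry (q : ℕ) (c : Chain E (q + 1)) :
    Finsupp.mapDomain toL ((chainsCx E).d q c) = dL (toL c) := by
  show Finsupp.mapDomain toL (bdry q (Finsupp.single c 1)) = _
  rw [toL, dL_ofFn, bdry_single, one_smul, Finsupp.mapDomain_finsetSum]
  refine Fintype.sum_equiv Fin.revPerm _ _ fun i => ?_
  rw [Finsupp.mapDomain_smul, Finsupp.mapDomain_single]
  congr 2
  · simp [Fin.val_rev]
    omega
  · refine congrArg List.ofFn (funext fun k => ?_)
    simp [Chain.face, Fin.rev_succAbove]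

theorem toL_bd (q : ℕ) (v : Chain E (q + 1) →₀ ℤ) :
    Finsupp.mapDomain toL (bd (chainsCx E) q v) = bdL (Finsupp.mapDomain toL v) := by
  induction v using Finsupp.induction_linear with
  | zero => simp
  | add a b ha hb => simp [map_add, Finsupp.mapDomain_add, ha, hb]
  | single c m =>
    rw [bd_single, Finsupp.mapDomain_smul, toL_bdry, Finsupp.mapDomain_single, bdL_single]

theorem toL_atom {n : ℕ} (c : Chain E n) : ∀ j q, q + j = n →
    Finsupp.mapDomain toL (atomNeg (chainsCx E) c q) = side false (toL c) (q + 1) ∧
      Finsupp.mapDomain toL (atomPos (chainsCx E) c q) = side true (toL c) (q + 1) := by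
  intro j
  induction j with
  | zero =>
    intro q hq
    obtain rfl : q = n := hq
    simp only [atomNeg, atomPos, down_top, Finsupp.mapDomain_single, ← toL_length c, side_top,
      and_self]
  | succ j ih =>
    intro q hq
    obtain ⟨a, b⟩ := ih (q + 1) (by omega)
    have s := down_step (K := chainsCx E) (show q < n by omega) (Finsupp.single c (1 : ℤ))
    obtain ⟨P, N⟩ := posP_negP_sub (side_nonneg true (toL c) (q + 1))
      (side_nonneg false (toL c) (q + 1))
      (side_disjoint _ (toL_nodup c) (q + 1) (by rw [toL_length]; omega))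
    simp only [atomNeg, atomPos] at a b ⊢
    rw [s.1, s.2, ← negP_mapDomain (toL_inj q), ← posP_mapDomain (toL_inj q), toL_bd, toL_bd, a, b,
      bdL_side, bdL_side]
    exact ⟨N, P⟩

theorem eps_chains (v : Chain E 0 →₀ ℤ) :
    eps (chainsCx E) v = tot (Finsupp.mapDomain toL v) := (tot_mapDomain toL v).symm

/-- The list of vertices from the bottom, in the opposite order. -/
def ascKey (x : Σ q, Chain E q) : List Eᵒᵈ := List.ofFn fun i => OrderDual.toDual (x.2.1 i)

theorem ascKey_inj : (ascKey (E := E)).Injective := by
  rintro ⟨q, c⟩ ⟨q', c'⟩ h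
  obtain rfl : q = q' := by simpa [ascKey] using congrArg List.length h
  congr 1
  apply Subtype.ext
  funext i
  simpa using congrFun (List.ofFn_injective h) i

theorem isStrictTotalOrder_altLt {Z : Type} [LinearOrder Z] :
    IsStrictTotalOrder (List Z) (fun l m => Chains.altLt m l) where
  trichotomous l m h₁ h₂ := by
    rcases Chains.altLt_trichotomous l m with h | h | h
    exacts [absurd h h₂, h, absurd h h₁]
  irrefl l := Chains.altLt_irrefl l
  trans _ _ _ h₁ h₂ := Chains.altLt_trans h₂ h₁

/-- The complex of chains of a linear order is good. -/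
theorem good_chains : Good (chainsCx E) where
  bd_bd q c := by
    apply Finsupp.mapDomain_injective (toL_inj q)
    rw [toL_bd, toL_bdry, bdL_dL, Finsupp.mapDomain_zero]
  eps_bd c := by
    rw [eps_chains, toL_bdry, toL, dL_ofFn, map_sum]
    simp [Fin.sum_univ_two, sg, tot]
  unit_neg n c := by
    rw [eps_chains, (toL_atom c n 0 (by omega)).1]
    exact tot_side _ (List.ne_nil_of_length_eq_add_one (toL_length c)) false
  unit_pos n c := by
    rw [eps_chains, (toL_atom c n 0 (by omega)).2]
    exact tot_side _ (List.ne_nil_of_length_eq_add_one (toL_length c)) true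
  order := by
    classical
    refine ⟨_, isStrictTotalOrder_key isStrictTotalOrder_altLt ascKey ascKey_inj, ?_⟩
    intro q c a
    have hd : (chainsCx E).d q c a =
        ∑ i : Fin (q + 2), if c.face i = a then (-1 : ℤ) ^ (i : ℕ) else 0 := by
      show bdry q (Finsupp.single c 1) a = _
      rw [bdry_single, one_smul, Finsupp.finsetSum_apply]
      simp [Finsupp.single_apply]
    have hpw : (ascKey ⟨q + 1, c⟩).Pairwise (· > ·) :=
      List.pairwise_ofFn.2 fun i j h => c.2 h
    have herase : ∀ i : Fin (q + 2),
        ascKey ⟨q, c.face i⟩ = (ascKey ⟨q + 1, c⟩).eraseIdx i := by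
      intro i
      refine List.ext_getElem (by simp [ascKey, List.length_eraseIdx, i.isLt]) fun k h1 h2 => ?_
      simp only [ascKey, Chain.face, List.getElem_eraseIdx, List.getElem_ofFn, Function.comp_apply]
      split_ifs with hk
      · rw [Fin.succAbove_of_castSucc_lt _ _ (by simpa [Fin.lt_def] using hk)]
        rfl
      · rw [Fin.succAbove_of_le_castSucc _ _ (by simpa [Fin.le_def] using hk)]
        rfl
    have key : ∀ i : Fin (q + 2), _ := fun i =>
      Chains.altLt_eraseIdx (ascKey ⟨q + 1, c⟩) hpw i (by simp [ascKey]; omega)
    rw [hd]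
    constructor <;> intro h
    · obtain ⟨i, -, hi⟩ := Finset.exists_lt_of_sum_lt
        (show ∑ i : Fin (q + 2), (if c.face i = a then (-1 : ℤ) ^ (i : ℕ) else 0) <
          ∑ _i : Fin (q + 2), (0 : ℤ) by simpa using h)
      split_ifs at hi with e
      · subst e
        show Chains.altLt (ascKey ⟨q + 1, c⟩) (ascKey ⟨q, c.face i⟩)
        rw [herase]
        rcases Nat.even_or_odd (i : ℕ) with he | ho
        · rw [he.neg_one_pow] at hi; omega
        · exact (key i).2 ho
      · omega
    · obtain ⟨i, -, hi⟩ := Finset.exists_lt_of_sum_lt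
        (show ∑ _i : Fin (q + 2), (0 : ℤ) <
          ∑ i : Fin (q + 2), (if c.face i = a then (-1 : ℤ) ^ (i : ℕ) else 0) by simpa using h)
      split_ifs at hi with e
      · subst e
        show Chains.altLt (ascKey ⟨q, c.face i⟩) (ascKey ⟨q + 1, c⟩)
        rw [herase]
        rcases Nat.even_or_odd (i : ℕ) with he | ho
        · exact (key i).1 he
        · rw [ho.neg_one_pow] at hi; omega
      · omega

/-- The complex of chains of a finite linear order is good. -/
theorem good_chains_fin (m : ℕ) : Good (chainsCx (Fin m)) := good_chains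

end Vale.Agent.P213.Steiner
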