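import Vale.Agent.P213.Steiner.Nu

/-!
# P213: atoms
-/

open CategoryTheory

noncomputable section

namespace Vale.Agent.P213.Steiner

variable {K : Cx}

/-- The atom of a basis element. -/
def atom (hK : Good K) {n : ℕ} (b : K.B n) : (nu K).Cell where
  neg := atomNeg K b
  pos := atomPos K b
  neg_nonneg q x := (atom_nonneg b q x).1
  pos_nonneg q x := (atom_nonneg b q x).2
  bounded := ⟨n + 1, fun q hq => down_above (by omega) _⟩
  aug_neg := hK.unit_neg n b
  aug_pos := hK.unit_pos n b
  bdry_neg q := by
    rcases lt_or_ge q n with h | h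
    · exact (hK.bd_atom h b).1
    · rw [show atomNeg K b (q + 1) = 0 from (down_above (by omega) _).1, map_zero]
      rcases h.lt_or_eq with h | rfl
      · simp [atomNeg, atomPos, down_above h]
      · simp [atomNeg, atomPos, down_top]
  bdry_pos q := by
    rcases lt_or_ge q n with h | h
    · exact (hK.bd_atom h b).2
    · rw [show atomPos K b (q + 1) = 0 from (down_above (by omega) _).2, map_zero]
      rcases h.lt_or_eq with h | rfl
      · simp [atomNeg, atomPos, down_above h]
      · simp [atomNeg, atomPos, down_top]

@[simp] theorem atom_neg (hK : Good K) {n : ℕ} (b : K.B n) : (atom hK b).neg = atomNeg K b := rfl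

@[simp] theorem atom_pos (hK : Good K) {n : ℕ} (b : K.B n) : (atom hK b).pos = atomPos K b := rfl

end Vale.Agent.P213.Steiner
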