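import Vale.Agent.P213.Oriental

/-!
# P213: complexes with a basis, atom chains, good bases

`Good K`: `d d = 0`, `e d = 0`, the basis is unitary and strongly loop-free (Steiner), in the form:
a strict total order on all basis elements in which the negative part of `d b` is below `b` and
the positive part above it.
-/

noncomputable section

namespace Vale.Agent.P213.Steiner

/-- An augmented directed complex with a basis. -/
structure Cx : Type 1 where
  B : ℕ → Type
  d : ∀ q, B (q + 1) → (B q →₀ ℤ)
  e : B 0 → ℤ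

/-- The complex of chains of a poset. -/
abbrev chainsCx (E : Type) [PartialOrder E] : Cx where
  B := Chain E
  d q c := bdry q (Finsupp.single c 1)
  e _ := 1

/-! ## Positive and negative parts -/

section Parts

variable {α β : Type}

/-- The positive part. -/
def posP (v : α →₀ ℤ) : α →₀ ℤ := v.mapRange (fun a => max a 0) (by simp)

/-- The negative part. -/
def negP (v : α →₀ ℤ) : α →₀ ℤ := posP (-v)

@[simp] theorem posP_apply (v : α →₀ ℤ) (x : α) : posP v x = max (v x) 0 := by simp [posP]

@[simp] theorem negP_apply (v : α →₀ ℤ) (x : α) : negP v x = max (-v x) 0 := by simp [negP]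

theorem posP_nonneg (v : α →₀ ℤ) (x : α) : 0 ≤ posP v x := by simp

theorem negP_nonneg (v : α →₀ ℤ) (x : α) : 0 ≤ negP v x := by simp

theorem posP_sub_negP (v : α →₀ ℤ) : posP v - negP v = v := by
  ext x; simp

theorem posP_negP_disjoint (v : α →₀ ℤ) (x : α) : posP v x = 0 ∨ negP v x = 0 := by
  simp; omega

@[simp] theorem posP_zero : posP (0 : α →₀ ℤ) = 0 := by ext x; simp

@[simp] theorem negP_zero : negP (0 : α →₀ ℤ) = 0 := by ext x; simp

theorem posP_negP_sub {a b : α →₀ ℤ} (ha : ∀ x, 0 ≤ a x) (hb : ∀ x, 0 ≤ b x)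
    (h : ∀ x, a x = 0 ∨ b x = 0) : posP (a - b) = a ∧ negP (a - b) = b := by
  constructor <;>
  · ext x
    have := ha x; have := hb x; have := h x
    simp
    omega

theorem posP_mapDomain {f : α → β} (hf : f.Injective) (v : α →₀ ℤ) :
    posP (v.mapDomain f) = (posP v).mapDomain f := by
  ext y
  by_cases h : y ∈ Set.range f
  · obtain ⟨x, rfl⟩ := h
    simp [Finsupp.mapDomain_apply hf]
  · simp [Finsupp.mapDomain_of_notMem_range _ _ h]

theorem negP_mapDomain {f : α → β} (hf : f.Injective) (v : α →₀ ℤ) :
    negP (v.mapDomain f) = (negP v).mapDomain f := by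
  rw [negP, negP, ← posP_mapDomain hf]
  congr 1
  exact (map_neg (Finsupp.mapDomain.addMonoidHom f) v).symm

end Parts

/-! ## Linear maps and atom chains -/

variable (K : Cx)

/-- The differential. -/
def bd (q : ℕ) : (K.B (q + 1) →₀ ℤ) →ₗ[ℤ] (K.B q →₀ ℤ) := Finsupp.linearCombination ℤ (K.d q)

/-- The augmentation. -/
def eps : (K.B 0 →₀ ℤ) →ₗ[ℤ] ℤ := Finsupp.linearCombination ℤ K.e

theorem bd_single (q : ℕ) (b : K.B (q + 1)) (m : ℤ) :
    bd K q (Finsupp.single b m) = m • K.d q b := Finsupp.linearCombination_single ..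

theorem eps_single (b : K.B 0) (m : ℤ) : eps K (Finsupp.single b m) = m * K.e b :=
  Finsupp.linearCombination_single ..

/-- The negative chains under a chain of dimension `n`. -/
def downNeg : ∀ n, (K.B n →₀ ℤ) → ∀ q, K.B q →₀ ℤ
  | 0, v => Function.update (fun _ => 0) 0 v
  | n + 1, v => Function.update (downNeg n (negP (bd K n v))) (n + 1) v

/-- The positive chains under a chain of dimension `n`. -/
def downPos : ∀ n, (K.B n →₀ ℤ) → ∀ q, K.B q →₀ ℤ
  | 0, v => Function.update (fun _ => 0) 0 v
  | n + 1, v => Function.update (downPos n (posP (bd K n v))) (n + 1) v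

/-- The negative chains of the atom of `b`. -/
def atomNeg {n : ℕ} (b : K.B n) : ∀ q, K.B q →₀ ℤ := downNeg K n (Finsupp.single b 1)

/-- The positive chains of the atom of `b`. -/
def atomPos {n : ℕ} (b : K.B n) : ∀ q, K.B q →₀ ℤ := downPos K n (Finsupp.single b 1)

variable {K}

theorem down_top (n : ℕ) (v : K.B n →₀ ℤ) : downNeg K n v n = v ∧ downPos K n v n = v := by
  cases n <;> simp [downNeg, downPos]

theorem down_above {n q : ℕ} (h : n < q) (v : K.B n →₀ ℤ) :
    downNeg K n v q = 0 ∧ downPos K n v q = 0 := by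
  induction n with
  | zero => simp [downNeg, downPos, show q ≠ 0 by omega]
  | succ n ih =>
    simp only [downNeg, downPos, Function.update_of_ne (show q ≠ n + 1 by omega)]
    exact ⟨(ih (by omega) _).1, (ih (by omega) _).2⟩

theorem down_step {n q : ℕ} (h : q < n) (v : K.B n →₀ ℤ) :
    downNeg K n v q = negP (bd K q (downNeg K n v (q + 1))) ∧
      downPos K n v q = posP (bd K q (downPos K n v (q + 1))) := by
  induction n with
  | zero => omega
  | succ n ih =>
    simp only [downNeg, downPos, Function.update_of_ne (show q ≠ n + 1 by omega)]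
    rcases Nat.lt_succ_iff_lt_or_eq.1 h with hq | rfl
    · simp only [Function.update_of_ne (show q + 1 ≠ n + 1 by omega)]
      exact ⟨(ih hq _).1, (ih hq _).2⟩
    · simp [(down_top q _).1, (down_top q _).2]

theorem down_nonneg {n q : ℕ} (v : K.B n →₀ ℤ) (hv : ∀ x, 0 ≤ v x) (x : K.B q) :
    0 ≤ downNeg K n v q x ∧ 0 ≤ downPos K n v q x := by
  rcases lt_trichotomy q n with h | rfl | h
  · rw [(down_step h v).1, (down_step h v).2]
    exact ⟨negP_nonneg _ _, posP_nonneg _ _⟩
  · rw [(down_top q v).1, (down_top q v).2]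
    exact ⟨hv x, hv x⟩
  · simp [(down_above h v).1, (down_above h v).2]

variable (K)

/-- Complexes with a unitary, strongly loop-free basis. -/
structure Good : Prop where
  bd_bd : ∀ q (b : K.B (q + 2)), bd K q (K.d (q + 1) b) = 0
  eps_bd : ∀ b : K.B 1, eps K (K.d 0 b) = 0
  unit_neg : ∀ n (b : K.B n), eps K (atomNeg K b 0) = 1
  unit_pos : ∀ n (b : K.B n), eps K (atomPos K b 0) = 1
  order : ∃ r : (Σ q, K.B q) → (Σ q, K.B q) → Prop, IsStrictTotalOrder _ r ∧
    ∀ q (b : K.B (q + 1)) (a : K.B q),
      (K.d q b a < 0 → r ⟨q, a⟩ ⟨q + 1, b⟩) ∧ (0 < K.d q b a → r ⟨q + 1, b⟩ ⟨q, a⟩)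

variable {K}

/-- A strict total order pulled back along an injection. -/
theorem isStrictTotalOrder_key {α : Type} {β : Type*} {s : β → β → Prop}
    (hs : IsStrictTotalOrder β s) (k : α → β) (hk : k.Injective) :
    IsStrictTotalOrder α (fun x y => s (k x) (k y)) where
  trichotomous _ _ h₁ h₂ := hk (hs.trichotomous _ _ h₁ h₂)
  irrefl x := hs.irrefl (k x)
  trans _ _ _ := hs.trans _ _ _

theorem Good.bd_bd' (hK : Good K) (q : ℕ) (v : K.B (q + 2) →₀ ℤ) :
    bd K q (bd K (q + 1) v) = 0 := by
  induction v using Finsupp.induction_linear with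
  | zero => simp
  | add a b ha hb => simp [map_add, ha, hb]
  | single b m => rw [bd_single, map_smul, hK.bd_bd, smul_zero]

theorem Good.eps_bd' (hK : Good K) (v : K.B 1 →₀ ℤ) : eps K (bd K 0 v) = 0 := by
  induction v using Finsupp.induction_linear with
  | zero => simp
  | add a b ha hb => simp [map_add, ha, hb]
  | single b m => rw [bd_single, map_smul, hK.eps_bd, smul_zero]

theorem Good.e_eq_one (hK : Good K) (b : K.B 0) : K.e b = 1 := by
  simpa [atomNeg, (down_top 0 _).1, eps_single] using hK.unit_neg 0 b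

/-- Two levels of atom chains have the common boundary `pos - neg`. -/
theorem Good.bd_atom (hK : Good K) {n q : ℕ} (h : q < n) (b : K.B n) :
    bd K q (atomNeg K b (q + 1)) = atomPos K b q - atomNeg K b q ∧
      bd K q (atomPos K b (q + 1)) = atomPos K b q - atomNeg K b q := by
  have main : ∀ j q, q + j + 1 = n →
      bd K q (atomNeg K b (q + 1)) = bd K q (atomPos K b (q + 1)) := by
    intro j
    induction j with
    | zero =>
      intro q hq
      obtain rfl : q + 1 = n := by omega
      simp [atomNeg, atomPos, down_top]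
    | succ j ih =>
      intro q hq
      have hn := (down_step (show q + 1 < n by omega) (Finsupp.single b (1 : ℤ))).1
      have hp := (down_step (show q + 1 < n by omega) (Finsupp.single b (1 : ℤ))).2
      have e := ih (q + 1) (by omega)
      simp only [atomNeg, atomPos] at e ⊢
      rw [hn, hp, ← e]
      set v := bd K (q + 1) (downNeg K n (Finsupp.single b 1) (q + 1 + 1))
      rw [← sub_eq_zero, ← map_sub]
      have hsub : negP v - posP v = -v := by rw [← neg_sub, posP_sub_negP]
      rw [hsub, map_neg, hK.bd_bd', neg_zero]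
  have e := main (n - q - 1) q (by omega)
  have hn := (down_step h (Finsupp.single b (1 : ℤ))).1
  have hp := (down_step h (Finsupp.single b (1 : ℤ))).2
  simp only [atomNeg, atomPos] at e ⊢
  rw [hn, hp, ← e, posP_sub_negP]
  exact ⟨rfl, rfl⟩

theorem atom_nonneg {n : ℕ} (b : K.B n) (q : ℕ) (x : K.B q) :
    0 ≤ atomNeg K b q x ∧ 0 ≤ atomPos K b q x := by
  classical
  exact down_nonneg _ (fun y => by rw [Finsupp.single_apply]; split_ifs <;> simp) x

/-- The two chains of an atom below its dimension have disjoint supports. -/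
theorem Good.atom_disjoint (hK : Good K) {n q : ℕ} (h : q < n) (b : K.B n) (x : K.B q) :
    atomPos K b q x = 0 ∨ atomNeg K b q x = 0 := by
  have hn := (down_step h (Finsupp.single b (1 : ℤ))).1
  have hp := (down_step h (Finsupp.single b (1 : ℤ))).2
  have e : bd K q (atomNeg K b (q + 1)) = bd K q (atomPos K b (q + 1)) :=
    (hK.bd_atom h b).1.trans (hK.bd_atom h b).2.symm
  simp only [atomNeg, atomPos] at e ⊢
  rw [hn, hp, ← e]
  exact posP_negP_disjoint _ x

end Vale.Agent.P213.Steiner
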