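import Vale.Agent.P213.Steiner.Split

/-!
# P213: one step of Steiner's freeness theorem

An assignment functorial up to dimension `n` and compatible values on the atoms of dimension
`n + 1` give an assignment functorial up to dimension `n + 1`.
-/

open CategoryTheory

noncomputable section

namespace Vale.Agent.P213.Steiner

/-- An assignment on all cells which is functorial on the cells of dimension at most `n`. -/
structure FunUpTo (K : Cx) (X : OmegaCat) (n : ℕ) : Type where
  toFun : (nu K).Cell → X.Cell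
  map_src : ∀ i x, (nu K).src n x = x → toFun ((nu K).src i x) = X.src i (toFun x)
  map_tgt : ∀ i x, (nu K).src n x = x → toFun ((nu K).tgt i x) = X.tgt i (toFun x)
  map_comp : ∀ i x y, (nu K).src n x = x → (nu K).src n y = y →
    (nu K).tgt i x = (nu K).src i y →
    toFun ((nu K).comp i x y) = X.comp i (toFun x) (toFun y)

variable {K : Cx} {X : OmegaCat}

/-! ## Dimensions -/

theorem src_self_le {A : OmegaCat} {x : A.Cell} {j n : ℕ} (h : A.src j x = x) (hjn : j ≤ n) :
    A.src n x = x := by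
  rcases hjn.lt_or_eq with hlt | rfl
  · rw [← h, A.src_src_hi hlt]
  · exact h

theorem tgt_eq_self {A : OmegaCat} {x : A.Cell} {j : ℕ} (h : A.src j x = x) :
    A.tgt j x = x := by
  rw [← h, A.tgt_src]

/-- The atom is of the dimension of its basis element. -/
theorem atom_src_self (hK : Good K) {q : ℕ} (b : K.B q) :
    (nu K).src q (atom hK b) = atom hK b :=
  (src_eq_self_iff q (atom hK b)).2 fun _ hp => down_above hp _

theorem atom_src_ne (hK : Good K) {q n : ℕ} (b : K.B q) (h : n < q) :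
    (nu K).src n (atom hK b) ≠ atom hK b := by
  intro e
  have h1 : atomNeg K b q = 0 := ((src_eq_self_iff n (atom hK b)).1 e q h).1
  rw [(atomNeg_self b).1] at h1
  simp at h1

theorem atom_injective (hK : Good K) {q : ℕ} {b b' : K.B q} (h : atom hK b = atom hK b') :
    b = b' := by
  have h1 := congrArg (fun x : Cell K => x.neg q) h
  simp only [atom_neg, (atomNeg_self b).1, (atomNeg_self b').1] at h1
  exact (Finsupp.single_left_injective one_ne_zero) h1

theorem atom_not_comp (hK : Good K) {q j : ℕ} (hq : 0 < q) (b : K.B q) {y z : Cell K}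
    (hc : y.tgt j = z.src j) (hy : y.src j ≠ y) (hz : z.src j ≠ z) :
    atom hK b ≠ Cell.comp j y z := by
  intro e
  have hs : Slim j (atom hK b) := Slim.mono ⟨_, atom_rep hK b hq, by simp⟩ (Nat.zero_le j)
  rw [e] at hs
  rcases (hs.split hK le_rfl hc).1 with h | h
  exacts [hy h, hz h]

theorem Rep.peelN (hK : Good K) {j : ℕ} {x : (nu K).Cell} {a : Item K}
    {T : Multiset (Item K)} (h : Rep j x (a ::ₘ T)) (he : Elig j x a) :
    ∃ y z : (nu K).Cell, (nu K).tgt j y = (nu K).src j z ∧ (nu K).comp j y z = x ∧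
      Rep j y ({a} : Multiset (Item K)) ∧ Rep j z T := Rep.peel hK h he

theorem Rep.compN {j k : ℕ} {x y : (nu K).Cell} {S T : Multiset (Item K)} (hjk : j ≤ k)
    (hc : (nu K).tgt j x = (nu K).src j y) (h : Rep k x S) (h' : Rep k y T) :
    Rep k ((nu K).comp j x y) (S + T) := Rep.comp hjk hc h h'

section

variable (hK : Good K) {n : ℕ} (F : FunUpTo K X n) (v : K.B (n + 1) → X.Cell)

/-- The possible values of the extension. -/
inductive Ev : (nu K).Cell → X.Cell → Prop
  | low (x : (nu K).Cell) : (nu K).src n x = x → Ev x (F.toFun x)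
  | gen (b : K.B (n + 1)) : Ev (atom hK b) (v b)
  | comp (j : ℕ) (y z : (nu K).Cell) (a c : X.Cell) : j ≤ n →
      (nu K).src (n + 1) y = y → (nu K).src (n + 1) z = z → (nu K).src j y ≠ y →
      (nu K).src j z ≠ z → (nu K).tgt j y = (nu K).src j z → Ev y a → Ev z c →
      Ev ((nu K).comp j y z) (X.comp j a c)

theorem dim_comp {A : OmegaCat} {j m : ℕ} {y z : A.Cell} (hj : j < m) (hy : A.src m y = y)
    (hz : A.src m z = z) (hc : A.tgt j y = A.src j z) :
    A.src m (A.comp j y z) = A.comp j y z := by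
  rw [A.src_comp_hi hj y z hc, hy, hz]

variable {hK F v}

theorem Ev.dim {x : (nu K).Cell} {w : X.Cell} (h : Ev hK F v x w) :
    (nu K).src (n + 1) x = x := by
  induction h with
  | low x hx => exact src_self_le hx (Nat.le_succ n)
  | gen b => exact atom_src_self hK b
  | comp j y z a c hj hy hz _ _ hc _ _ _ _ => exact dim_comp (by omega) hy hz hc

variable (hv : ∀ b, X.src (n + 1) (v b) = v b)
  (hs : ∀ b, X.src n (v b) = F.toFun ((nu K).src n (atom hK b)))
  (ht : ∀ b, X.tgt n (v b) = F.toFun ((nu K).tgt n (atom hK b)))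

include hv hs ht in
theorem Ev.bd {x : (nu K).Cell} {w : X.Cell} (h : Ev hK F v x w) :
    X.src (n + 1) w = w ∧ ∀ i ≤ n, F.toFun ((nu K).src i x) = X.src i w ∧
      F.toFun ((nu K).tgt i x) = X.tgt i w := by
  induction h with
  | low x hx =>
    refine ⟨src_self_le ?_ (Nat.le_succ n), fun i _ => ⟨F.map_src i x hx, F.map_tgt i x hx⟩⟩
    rw [← F.map_src n x hx, hx]
  | gen b =>
    refine ⟨hv b, fun i hi => ?_⟩
    rcases hi.lt_or_eq with hlt | rfl
    · constructor
      · rw [← X.src_src_lo hlt (v b), hs, ← F.map_src i _ ((nu K).src_src n _)]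
        congr 1
        exact ((nu K).src_src_lo hlt _).symm
      · rw [← X.tgt_src_lo hlt (v b), hs, ← F.map_tgt i _ ((nu K).src_src n _)]
        congr 1
        exact ((nu K).tgt_src_lo hlt _).symm
    · exact ⟨(hs b).symm, (ht b).symm⟩
  | comp j y z a c hj hy hz _ _ hc _ _ iha ihc =>
    obtain ⟨ha, ha'⟩ := iha
    obtain ⟨hc1, hc'⟩ := ihc
    have hac : X.tgt j a = X.src j c := by rw [← (ha' j hj).2, ← (hc' j hj).1, hc]
    refine ⟨dim_comp (by omega) ha hc1 hac, fun i hi => ?_⟩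
    rcases lt_trichotomy i j with hij | rfl | hij
    · constructor
      · rw [← (nu K).src_src_lo hij, (nu K).src_comp j y z hc, (nu K).src_src_lo hij,
          (ha' i hi).1, ← X.src_src_lo hij, ← X.src_comp j a c hac, X.src_src_lo hij]
      · rw [← (nu K).tgt_src_lo hij, (nu K).src_comp j y z hc, (nu K).tgt_src_lo hij,
          (ha' i hi).2, ← X.tgt_src_lo hij, ← X.src_comp j a c hac, X.tgt_src_lo hij]
    · rw [(nu K).src_comp i y z hc, (nu K).tgt_comp i y z hc, X.src_comp i a c hac,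
        X.tgt_comp i a c hac]
      exact ⟨(ha' i hi).1, (hc' i hi).2⟩
    · have d : ∀ u, (nu K).src n ((nu K).src i u) = (nu K).src i u ∧
          (nu K).src n ((nu K).tgt i u) = (nu K).tgt i u := fun u =>
        ⟨src_self_le ((nu K).src_src i u) hi, src_self_le ((nu K).src_tgt i u) hi⟩
      rw [(nu K).src_comp_hi hij y z hc, (nu K).tgt_comp_hi hij y z hc,
        X.src_comp_hi hij a c hac, X.tgt_comp_hi hij a c hac,
        F.map_comp j _ _ (d y).1 (d z).1 (by
          rw [(nu K).tgt_src_lo hij, (nu K).src_src_lo hij, hc]),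
        F.map_comp j _ _ (d y).2 (d z).2 (by
          rw [(nu K).tgt_tgt_lo hij, (nu K).src_tgt_lo hij, hc]),
        (ha' i hi).1, (ha' i hi).2, (hc' i hi).1, (hc' i hi).2]
      exact ⟨rfl, rfl⟩

theorem Ev.eq_of_low {x : (nu K).Cell} {w : X.Cell} (h : Ev hK F v x w) :
    (nu K).src n x = x → w = F.toFun x := by
  induction h with
  | low x _ => exact fun _ => rfl
  | gen b => exact fun e => absurd e (atom_src_ne hK b (Nat.lt_succ_self n))
  | comp j y z a c hj _ _ _ _ hc _ _ iha ihc =>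
    intro e
    obtain ⟨hy, hz⟩ := src_self_of_comp hj hc e
    rw [iha hy, ihc hz, F.map_comp j y z hy hz hc]

theorem exists_ev (x : (nu K).Cell) (hx : (nu K).src (n + 1) x = x) : ∃ w, Ev hK F v x w := by
  induction x using smaller_wf.induction with
  | _ x ih =>
  by_cases hlow : (nu K).src n x = x
  · exact ⟨_, .low x hlow⟩
  rcases exists_level hK x with h0 | ⟨i, S, -, hS, hcard⟩
  · obtain ⟨p, b, rfl⟩ := h0.eq_atom hK
    rcases lt_trichotomy p (n + 1) with hp | rfl | hp
    · exact absurd (src_self_le (atom_src_self hK b) (by omega)) hlow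
    · exact ⟨_, .gen b⟩
    · exact absurd hx (atom_src_ne hK b hp)
  · have hne : S ≠ 0 := by rintro rfl; simp at hcard
    obtain ⟨a, ha, he⟩ := hS.exists_elig hK hne
    obtain ⟨T, rfl⟩ := Multiset.exists_cons_of_mem ha
    obtain ⟨y, z, hc, rfl, hy, hz⟩ := hS.peelN hK (he x _ hS le_rfl ha)
    have hi : i ≤ n := by
      by_contra hni
      exact hne (hS.eq_zero (src_self_le hx (by omega)))
    have hyne : y.src i ≠ y := fun e =>
      Multiset.singleton_ne_zero a (hy.eq_zero e)
    have hzne : z.src i ≠ z := fun e => by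
      rw [hz.eq_zero e] at hcard
      simp at hcard
    obtain ⟨hy1, hz1⟩ := src_self_of_comp (by omega : i ≤ n + 1) hc hx
    obtain ⟨s1, s2⟩ := smaller_of_comp hc hyne hzne
    obtain ⟨w1, hw1⟩ := ih y s1 hy1
    obtain ⟨w2, hw2⟩ := ih z s2 hz1
    exact ⟨_, .comp i y z w1 w2 hi hy1 hz1 hyne hzne hc hw1 hw2⟩

variable (hK F v) in
open Classical in
/-- A chosen value. -/
def val (x : (nu K).Cell) : X.Cell :=
  if h : ∃ w, Ev hK F v x w then h.choose else F.toFun x

theorem ev_val (x : (nu K).Cell) (hx : (nu K).src (n + 1) x = x) :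
    Ev hK F v x (val hK F v x) := by
  rw [val, dif_pos (exists_ev x hx)]
  exact (exists_ev x hx).choose_spec

theorem val_low {x : (nu K).Cell} (hx : (nu K).src n x = x) :
    val hK F v x = F.toFun x :=
  (ev_val x (src_self_le hx (Nat.le_succ n))).eq_of_low hx

/-- Uniqueness of the value at `x`. -/
def Uniq (hK : Good K) (F : FunUpTo K X n) (v : K.B (n + 1) → X.Cell) (x : (nu K).Cell) : Prop :=
  ∀ w, Ev hK F v x w → w = val hK F v x

include hv hs ht in
/-- Composites whose value is unique have the composite value. -/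
theorem val_comp {j : ℕ} {y z : (nu K).Cell} (hj : j ≤ n) (hy : (nu K).src (n + 1) y = y)
    (hz : (nu K).src (n + 1) z = z) (hc : (nu K).tgt j y = (nu K).src j z)
    (hu : Uniq hK F v ((nu K).comp j y z)) :
    val hK F v ((nu K).comp j y z) = X.comp j (val hK F v y) (val hK F v z) := by
  obtain ⟨-, by'⟩ := (ev_val (hK := hK) (F := F) (v := v) y hy).bd hv hs ht
  obtain ⟨-, bz'⟩ := (ev_val (hK := hK) (F := F) (v := v) z hz).bd hv hs ht
  by_cases h1 : (nu K).src j y = y
  · have e : y = (nu K).src j z := by rw [← hc, tgt_eq_self h1]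
    have hl : val hK F v y = X.src j (val hK F v z) := by
      rw [val_low (src_self_le h1 hj), ← (bz' j hj).1, ← e]
    rw [hl, X.unit_left, e, (nu K).unit_left]
  by_cases h2 : (nu K).src j z = z
  · have e : z = (nu K).tgt j y := by rw [hc, h2]
    have hl : val hK F v z = X.tgt j (val hK F v y) := by
      rw [val_low (src_self_le h2 hj), ← (by' j hj).2, ← e]
    rw [hl, X.unit_right, e, (nu K).unit_right]
  exact (hu _ (.comp j y z _ _ hj hy hz h1 h2 hc (ev_val y hy) (ev_val z hz))).symm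

variable (hK F v) in
/-- The value of a factorisation. -/
def pv (j : ℕ) (y z : (nu K).Cell) : X.Cell := X.comp j (val hK F v y) (val hK F v z)

variable {x : (nu K).Cell} (ih : ∀ y, Smaller y x → (nu K).src (n + 1) y = y → Uniq hK F v y)
  {i : ℕ} {S : Multiset (Item K)}

/-- A nontrivial factorisation of `x`. -/
structure Fac (x : (nu K).Cell) (j : ℕ) (y z : (nu K).Cell) : Prop where
  comp_eq : (nu K).comp j y z = x
  hc : (nu K).tgt j y = (nu K).src j z
  ne_left : (nu K).src j y ≠ y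
  ne_right : (nu K).src j z ≠ z

theorem Fac.lt {j : ℕ} {y z : (nu K).Cell} (h : Fac x j y z) : Smaller y x ∧ Smaller z x :=
  h.comp_eq ▸ smaller_of_comp h.hc h.ne_left h.ne_right

theorem Fac.dims {j : ℕ} {y z : (nu K).Cell} (h : Fac x j y z) (hx : (nu K).src (n + 1) x = x)
    (hj : j ≤ n) : (nu K).src (n + 1) y = y ∧ (nu K).src (n + 1) z = z :=
  src_self_of_comp (show j ≤ n + 1 by omega) h.hc (by rw [← h.comp_eq] at hx; exact hx)

theorem Fac.level_le {j : ℕ} {y z : (nu K).Cell} (h : Fac x j y z)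
    (hx : (nu K).src (n + 1) x = x) : j ≤ n := by
  by_contra hj
  have hxj : (nu K).src j x = x := src_self_le hx (by omega)
  rw [← h.comp_eq] at hxj
  exact h.ne_left (src_self_of_comp le_rfl h.hc hxj).1

theorem Fac.of_rep {j : ℕ} {y z : (nu K).Cell} {T U : Multiset (Item K)}
    (he : (nu K).comp j y z = x) (hc : (nu K).tgt j y = (nu K).src j z) (hy : Rep j y T)
    (hz : Rep j z U) (hT : T ≠ 0) (hU : U ≠ 0) : Fac x j y z :=
  ⟨he, hc, fun e => hT (hy.eq_zero e), fun e => hU (hz.eq_zero e)⟩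

theorem Rep.src_zero (i : ℕ) (y : (nu K).Cell) : Rep i ((nu K).src i y) (0 : Multiset (Item K)) :=
  Rep.zero_iff.2 ((nu K).src_src i y)

theorem Rep.tgt_zero (i : ℕ) (y : (nu K).Cell) : Rep i ((nu K).tgt i y) (0 : Multiset (Item K)) :=
  Rep.zero_iff.2 ((nu K).src_tgt i y)

theorem Rep.le_of_dim {y : (nu K).Cell} {T : Multiset (Item K)} (h : Rep i y T) (hT : T ≠ 0)
    (hy : (nu K).src (n + 1) y = y) : i ≤ n := by
  by_contra hni
  exact hT (h.eq_zero (src_self_le hy (by omega)))

/-- The two interchanges through a lower composite. -/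
theorem interchange_two {A : OmegaCat} {j i : ℕ} (hij : j < i) {y z : A.Cell}
    (hc : A.tgt j y = A.src j z) :
    (A.tgt j y = A.src j (A.src i z) ∧ A.tgt j (A.tgt i y) = A.src j z ∧
      A.tgt i (A.comp j y (A.src i z)) = A.src i (A.comp j (A.tgt i y) z) ∧
      A.comp i (A.comp j y (A.src i z)) (A.comp j (A.tgt i y) z) = A.comp j y z) ∧
    (A.tgt j (A.src i y) = A.src j z ∧ A.tgt j y = A.src j (A.tgt i z) ∧
      A.tgt i (A.comp j (A.src i y) z) = A.src i (A.comp j y (A.tgt i z)) ∧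
      A.comp i (A.comp j (A.src i y) z) (A.comp j y (A.tgt i z)) = A.comp j y z) := by
  have e1 : A.tgt j y = A.src j (A.src i z) := by rw [A.src_src_lo hij, hc]
  have e2 : A.tgt j (A.tgt i y) = A.src j z := by rw [A.tgt_tgt_lo hij, hc]
  have e3 : A.tgt j (A.src i y) = A.src j z := by rw [A.tgt_src_lo hij, hc]
  have e4 : A.tgt j y = A.src j (A.tgt i z) := by rw [A.src_tgt_lo hij, hc]
  refine ⟨⟨e1, e2, ?_, ?_⟩, ⟨e3, e4, ?_, ?_⟩⟩
  · rw [A.tgt_comp_hi hij _ _ e1, A.src_comp_hi hij _ _ e2, A.tgt_src, A.src_tgt]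
  · rw [A.interchange hij y (A.src i z) (A.tgt i y) z e1 (A.src_tgt i y).symm (A.tgt_src i z),
      A.unit_right, A.unit_left]
  · rw [A.tgt_comp_hi hij _ _ e3, A.src_comp_hi hij _ _ e4, A.tgt_src, A.src_tgt]
  · rw [A.interchange hij (A.src i y) z y (A.tgt i z) e3 (A.tgt_src i y) (A.src_tgt i z).symm,
      A.unit_left, A.unit_right]

include hv hs ht ih in
/-- A factorisation along `j < i` with parts above `i` on both sides, refined along `i` in the
two possible orders with the same value. -/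
theorem refine_two {j : ℕ} {y z : (nu K).Cell} (hf : Fac x j y z)
    (hx : (nu K).src (n + 1) x = x) (hij : j < i) {Sy Sz : Multiset (Item K)}
    (hy : Rep i y Sy) (hz : Rep i z Sz) (hSy : Sy ≠ 0) (hSz : Sz ≠ 0) :
    (∃ u w, Fac x i u w ∧ Rep i u Sy ∧ Rep i w Sz ∧ pv hK F v i u w = pv hK F v j y z) ∧
    (∃ u w, Fac x i u w ∧ Rep i u Sz ∧ Rep i w Sy ∧ pv hK F v i u w = pv hK F v j y z) := by
  obtain ⟨⟨e1, e2, e12, ei⟩, ⟨e3, e4, e34, ei'⟩⟩ := interchange_two (A := nu K) hij hf.hc
  have r1 : Rep i ((nu K).comp j y ((nu K).src i z)) Sy := by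
    have := hy.compN hij.le e1 (Rep.src_zero i z)
    rwa [add_zero] at this
  have r2 : Rep i ((nu K).comp j ((nu K).tgt i y) z) Sz := by
    have := (Rep.tgt_zero i y).compN hij.le e2 hz
    rwa [zero_add] at this
  have r3 : Rep i ((nu K).comp j ((nu K).src i y) z) Sz := by
    have := (Rep.src_zero i y).compN hij.le e3 hz
    rwa [zero_add] at this
  have r4 : Rep i ((nu K).comp j y ((nu K).tgt i z)) Sy := by
    have := hy.compN hij.le e4 (Rep.tgt_zero i z)
    rwa [add_zero] at this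
  have f1 := Fac.of_rep (ei.trans hf.comp_eq) e12 r1 r2 hSy hSz
  have f2 := Fac.of_rep (ei'.trans hf.comp_eq) e34 r3 r4 hSz hSy
  have hjn : j ≤ n := hf.level_le hx
  obtain ⟨hy1, hz1⟩ := hf.dims hx hjn
  have hin := hy.le_of_dim hSy hy1
  have dy := (ev_val (hK := hK) (F := F) (v := v) y hy1).bd hv hs ht
  have dz := (ev_val (hK := hK) (F := F) (v := v) z hz1).bd hv hs ht
  have hyz : X.tgt j (val hK F v y) = X.src j (val hK F v z) := by
    rw [← (dy.2 j hjn).2, ← (dz.2 j hjn).1, hf.hc]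
  obtain ⟨⟨-, -, -, xi⟩, ⟨-, -, -, xi'⟩⟩ := interchange_two (A := X) hij hyz
  have low : ∀ c, (nu K).src (n + 1) c = c →
      val hK F v ((nu K).src i c) = X.src i (val hK F v c) ∧
      val hK F v ((nu K).tgt i c) = X.tgt i (val hK F v c) ∧
      (nu K).src (n + 1) ((nu K).src i c) = (nu K).src i c ∧
      (nu K).src (n + 1) ((nu K).tgt i c) = (nu K).tgt i c := fun c hcd => by
    obtain ⟨-, hb⟩ := (ev_val (hK := hK) (F := F) (v := v) c hcd).bd hv hs ht
    exact ⟨(val_low (src_self_le ((nu K).src_src i c) hin)).trans (hb i hin).1,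
      (val_low (src_self_le ((nu K).src_tgt i c) hin)).trans (hb i hin).2,
      src_self_le ((nu K).src_src i c) (by omega), src_self_le ((nu K).src_tgt i c) (by omega)⟩
  obtain ⟨ly1, ly2, ly3, ly4⟩ := low y hy1
  obtain ⟨lz1, lz2, lz3, lz4⟩ := low z hz1
  obtain ⟨d1, d2⟩ := f1.dims hx hin
  obtain ⟨d3, d4⟩ := f2.dims hx hin
  refine ⟨⟨_, _, f1, r1, r2, ?_⟩, ⟨_, _, f2, r3, r4, ?_⟩⟩
  · rw [pv, val_comp hv hs ht hjn hy1 lz3 e1 (ih _ f1.lt.1 d1),
      val_comp hv hs ht hjn ly4 hz1 e2 (ih _ f1.lt.2 d2), lz1, ly2, xi, pv]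
  · rw [pv, val_comp hv hs ht hjn ly3 hz1 e3 (ih _ f2.lt.1 d3),
      val_comp hv hs ht hjn hy1 lz4 e4 (ih _ f2.lt.2 d4), ly1, lz2, xi', pv]

include hv hs ht ih in
/-- A factorisation along `j < i` with a low left factor, refined along `i`. -/
theorem refine_left {j : ℕ} {y z : (nu K).Cell} (hf : Fac x j y z)
    (hx : (nu K).src (n + 1) x = x) (hij : j < i) (hy : (nu K).src i y = y)
    {a b : (nu K).Cell} {Sa Sb : Multiset (Item K)} (ha : Rep i a Sa) (hb : Rep i b Sb)
    (hab : (nu K).tgt i a = (nu K).src i b) (hz : (nu K).comp i a b = z) (hSa : Sa ≠ 0)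
    (hSb : Sb ≠ 0) :
    ∃ u w, Fac x i u w ∧ Rep i u Sa ∧ Rep i w Sb ∧ pv hK F v i u w = pv hK F v j y z := by
  subst hz
  have e0 : (nu K).tgt j y = (nu K).src j a := by
    rw [hf.hc, ← (nu K).src_src_lo hij, (nu K).src_comp i a b hab, (nu K).src_src_lo hij]
  have e0' : (nu K).tgt j y = (nu K).src j b := by
    rw [e0, ← (nu K).src_tgt_lo hij a, hab, (nu K).src_src_lo hij]
  have ty := tgt_eq_self hy
  have eu : (nu K).tgt i ((nu K).comp j y a) = (nu K).src i ((nu K).comp j y b) := by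
    rw [(nu K).tgt_comp_hi hij _ _ e0, (nu K).src_comp_hi hij _ _ e0', ty, hy, hab]
  have ex : (nu K).comp i ((nu K).comp j y a) ((nu K).comp j y b) = x := by
    have hyy : (nu K).comp i y y = y := by
      have := (nu K).unit_left i y
      rwa [hy] at this
    rw [(nu K).interchange hij y a y b e0 (ty.trans hy.symm) hab, hyy]
    exact hf.comp_eq
  have ry : Rep i y (0 : Multiset (Item K)) := Rep.zero_iff.2 hy
  have r1 : Rep i ((nu K).comp j y a) Sa := by
    have := ry.compN hij.le e0 ha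
    rwa [zero_add] at this
  have r2 : Rep i ((nu K).comp j y b) Sb := by
    have := ry.compN hij.le e0' hb
    rwa [zero_add] at this
  have f1 := Fac.of_rep ex eu r1 r2 hSa hSb
  have hin : i ≤ n := f1.level_le hx
  obtain ⟨hy1, hz1⟩ := hf.dims hx (by omega)
  obtain ⟨ha1, hb1⟩ := src_self_of_comp (show i ≤ n + 1 by omega) hab hz1
  obtain ⟨d1, d2⟩ := f1.dims hx hin
  obtain ⟨-, by1⟩ := (ev_val (hK := hK) (F := F) (v := v) y hy1).bd hv hs ht
  obtain ⟨-, ba1⟩ := (ev_val (hK := hK) (F := F) (v := v) a ha1).bd hv hs ht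
  obtain ⟨-, bb1⟩ := (ev_val (hK := hK) (F := F) (v := v) b hb1).bd hv hs ht
  have yl := val_low (hK := hK) (F := F) (v := v) (src_self_le hy hin)
  have hsy : X.src i (val hK F v y) = val hK F v y := by rw [← (by1 i hin).1, hy, yl]
  refine ⟨_, _, f1, r1, r2, ?_⟩
  rw [pv, val_comp hv hs ht (by omega) hy1 ha1 e0 (ih _ f1.lt.1 d1),
    val_comp hv hs ht (by omega) hy1 hb1 e0' (ih _ f1.lt.2 d2), pv,
    val_comp hv hs ht hin ha1 hb1 hab (ih _ hf.lt.2 hz1),
    X.interchange hij _ _ _ _ (by rw [← (by1 j (by omega)).2, ← (ba1 j (by omega)).1, e0])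
      ((tgt_eq_self hsy).trans hsy.symm) (by rw [← (ba1 i hin).2, ← (bb1 i hin).1, hab])]
  congr 1
  have hu := X.unit_left i (val hK F v y)
  rwa [hsy] at hu

include hv hs ht ih in
/-- A factorisation along `j < i` with a low right factor, refined along `i`. -/
theorem refine_right {j : ℕ} {y z : (nu K).Cell} (hf : Fac x j y z)
    (hx : (nu K).src (n + 1) x = x) (hij : j < i) (hz : (nu K).src i z = z)
    {a b : (nu K).Cell} {Sa Sb : Multiset (Item K)} (ha : Rep i a Sa) (hb : Rep i b Sb)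
    (hab : (nu K).tgt i a = (nu K).src i b) (hy : (nu K).comp i a b = y) (hSa : Sa ≠ 0)
    (hSb : Sb ≠ 0) :
    ∃ u w, Fac x i u w ∧ Rep i u Sa ∧ Rep i w Sb ∧ pv hK F v i u w = pv hK F v j y z := by
  subst hy
  have e0' : (nu K).tgt j b = (nu K).src j z := by
    rw [← hf.hc, ← (nu K).tgt_tgt_lo hij ((nu K).comp i a b), (nu K).tgt_comp i a b hab,
      (nu K).tgt_tgt_lo hij]
  have e0 : (nu K).tgt j a = (nu K).src j z := by
    rw [← e0', ← (nu K).tgt_tgt_lo hij a, hab, (nu K).tgt_src_lo hij]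
  have tz := tgt_eq_self hz
  have eu : (nu K).tgt i ((nu K).comp j a z) = (nu K).src i ((nu K).comp j b z) := by
    rw [(nu K).tgt_comp_hi hij _ _ e0, (nu K).src_comp_hi hij _ _ e0', tz, hz, hab]
  have ex : (nu K).comp i ((nu K).comp j a z) ((nu K).comp j b z) = x := by
    have hzz : (nu K).comp i z z = z := by
      have := (nu K).unit_left i z
      rwa [hz] at this
    rw [(nu K).interchange hij a z b z e0 hab (tz.trans hz.symm), hzz]
    exact hf.comp_eq
  have rz : Rep i z (0 : Multiset (Item K)) := Rep.zero_iff.2 hz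
  have r1 : Rep i ((nu K).comp j a z) Sa := by
    have := ha.compN hij.le e0 rz
    rwa [add_zero] at this
  have r2 : Rep i ((nu K).comp j b z) Sb := by
    have := hb.compN hij.le e0' rz
    rwa [add_zero] at this
  have f1 := Fac.of_rep ex eu r1 r2 hSa hSb
  have hin : i ≤ n := f1.level_le hx
  obtain ⟨hy1, hz1⟩ := hf.dims hx (by omega)
  obtain ⟨ha1, hb1⟩ := src_self_of_comp (show i ≤ n + 1 by omega) hab hy1
  obtain ⟨d1, d2⟩ := f1.dims hx hin
  obtain ⟨-, bz1⟩ := (ev_val (hK := hK) (F := F) (v := v) z hz1).bd hv hs ht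
  obtain ⟨-, ba1⟩ := (ev_val (hK := hK) (F := F) (v := v) a ha1).bd hv hs ht
  obtain ⟨-, bb1⟩ := (ev_val (hK := hK) (F := F) (v := v) b hb1).bd hv hs ht
  have zl := val_low (hK := hK) (F := F) (v := v) (src_self_le hz hin)
  have hsz : X.src i (val hK F v z) = val hK F v z := by rw [← (bz1 i hin).1, hz, zl]
  refine ⟨_, _, f1, r1, r2, ?_⟩
  rw [pv, val_comp hv hs ht (by omega) ha1 hz1 e0 (ih _ f1.lt.1 d1),
    val_comp hv hs ht (by omega) hb1 hz1 e0' (ih _ f1.lt.2 d2), pv,
    val_comp hv hs ht hin ha1 hb1 hab (ih _ hf.lt.1 hy1),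
    X.interchange hij _ _ _ _ (by rw [← (ba1 j (by omega)).2, ← (bz1 j (by omega)).1, e0])
      (by rw [← (ba1 i hin).2, ← (bb1 i hin).1, hab]) ((tgt_eq_self hsz).trans hsz.symm)]
  congr 1
  have hu := X.unit_left i (val hK F v z)
  rwa [hsz] at hu

include hv hs ht ih in
/-- The value of the factorisations along `i` starting with a single element does not depend
on that element: the case of two elements. -/
theorem core_two (hx : (nu K).src (n + 1) x = x) {a b : Item K} (hne : a ≠ b)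
    {y z y' z' : (nu K).Cell} (hf : Fac x i y z) (hf' : Fac x i y' z')
    (hy : Rep i y ({a} : Multiset (Item K))) (hz : Rep i z ({b} : Multiset (Item K)))
    (hy' : Rep i y' ({b} : Multiset (Item K))) (hz' : Rep i z' ({a} : Multiset (Item K))) :
    pv hK F v i y z = pv hK F v i y' z' := by
  classical
  have hS : Rep i x (a ::ₘ {b}) := by
    have := hy.compN le_rfl hf.hc hz
    rw [Multiset.singleton_add] at this
    exact hf.comp_eq ▸ this
  have key : ∀ (u w : (nu K).Cell) (c : Item K), (nu K).tgt i u = (nu K).src i w →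
      (nu K).comp i u w = x → Rep i u ({c} : Multiset (Item K)) →
      ∀ e, x.neg i e = u.neg i e ∧
        w.neg i e = x.neg i e + atomPos K c.2 i e - atomNeg K c.2 i e := by
    intro u w c hc hxe hu e
    have h1 : u.neg i = x.neg i := by
      rw [← hxe]
      have := (Cell.comp_of_eq hc i).1
      rw [if_pos le_rfl] at this
      exact this.symm
    refine ⟨by rw [h1], ?_⟩
    have h2 := congrArg (fun t : K.B i →₀ ℤ => t e)
      ((Cell.eq_of_tgt_eq_src i u w hc).1.symm.trans (hu.pos_eq hK))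
    simpa [h1, (sN_singleton c i).1, (sN_singleton c i).2] using h2
  have hle : ∀ e, atomNeg K a.2 i e + atomNeg K b.2 i e ≤ x.neg i e := by
    intro e
    obtain ⟨k1, k2⟩ := key y z a hf.hc hf.comp_eq hy e
    obtain ⟨k3, -⟩ := key y' z' b hf'.hc hf'.comp_eq hy' e
    have h1 := elig_single hK hz e
    have h2 := elig_single hK hy e
    have h3 := elig_single hK hy' e
    have h4 := (atom_nonneg a.2 i e).2
    rcases hK.atom_disjoint (hy.gt a (Multiset.mem_singleton_self a)) a.2 e with h0 | h0 <;> omega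
  rcases Nat.eq_zero_or_pos i with rfl | hi0
  · exfalso
    have h0 : ∀ c, 0 ≤ (x.neg 0 - atomNeg K a.2 0 - atomNeg K b.2 0) c := fun c => by
      have := hle c
      simp only [Finsupp.sub_apply]
      omega
    have h1 : (0 : ℤ) ≤ eps K (x.neg 0 - atomNeg K a.2 0 - atomNeg K b.2 0) := by
      rw [eps_apply]
      exact Finset.sum_nonneg fun c _ => by simpa [hK.e_eq_one] using h0 c
    rw [map_sub, map_sub, x.aug_neg, hK.unit_neg, hK.unit_neg] at h1
    exact absurd h1 (by norm_num)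
  obtain ⟨k, rfl⟩ : ∃ k, i = k + 1 := ⟨i - 1, by omega⟩
  have hin : k + 1 ≤ n := hf.level_le hx
  set r := x.neg (k + 1) - atomNeg K a.2 (k + 1) - atomNeg K b.2 (k + 1) with hr
  have hr0 : ∀ c, 0 ≤ r c := fun c => by
    have := hle c
    simp only [hr, Finsupp.sub_apply]
    omega
  have hT : Rep k x (a ::ₘ b ::ₘ items r) := by
    refine ⟨fun q hq => ?_, fun c hc => ?_⟩
    · rcases (show k + 1 < q ∨ q = k + 1 by omega) with hlt | rfl
      · have z0 := sN_eq_zero (S := items r) (q := q) fun c hc => by rw [mem_items hc]; exact hlt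
        simpa [z0.1, z0.2, (sN_singleton b q).1, (sN_singleton b q).2] using hS.up q hlt
      · have hp := hS.pos_eq hK
        simp only [sN_cons, sP_cons, (sN_singleton b _).1, (sN_singleton b _).2] at hp
        simp only [sN_cons, sP_cons, (sN_items hr0).1, (sN_items hr0).2]
        rw [hp, hr]
        constructor <;> abel
    · simp only [Multiset.mem_cons] at hc
      have hg := hS.gt
      rcases hc with rfl | rfl | hc
      · have := hg c (by simp); omega
      · have := hg c (by simp); omega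
      · rw [mem_items hc]; omega
  obtain ⟨m, hm, hel⟩ := hT.exists_elig hK (Multiset.cons_ne_zero)
  obtain ⟨T, hTe⟩ := Multiset.exists_cons_of_mem hm
  obtain ⟨u, w, hc, he, hu, hw⟩ := (hTe ▸ hT : Rep k x (m ::ₘ T)).peelN hK (hel x _ hT le_rfl hm)
  have hTne : T ≠ 0 := by
    rintro rfl
    have := congrArg Multiset.card hTe
    simp at this
  have hf1 : Fac x k u w := Fac.of_rep he hc hu hw (Multiset.singleton_ne_zero m) hTne
  have fin : ∀ {p q : (nu K).Cell} {c : Item K}, Fac x (k + 1) p q →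
      Rep (k + 1) p ({c} : Multiset (Item K)) →
      ∀ {p' q' : (nu K).Cell}, Fac x (k + 1) p' q' →
        Rep (k + 1) p' ({c} : Multiset (Item K)) →
        pv hK F v (k + 1) p q = pv hK F v (k + 1) p' q' := by
    intro p q c g gp p' q' g' gp'
    obtain ⟨rfl, rfl⟩ := comp_cancel g.hc g'.hc (g.comp_eq.trans g'.comp_eq.symm) gp gp'
    rfl
  have hu' := hu.mono (show k ≤ k + 1 by omega)
  have hw' := hw.mono (show k ≤ k + 1 by omega)
  have hfilter : (({m} : Multiset (Item K)).filter fun c => k + 1 < c.1)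
      + T.filter (fun c => k + 1 < c.1) = a ::ₘ {b} := by
    rw [← Multiset.filter_add, Multiset.singleton_add, ← hTe,
      Multiset.filter_cons_of_pos (p := fun c : Item K => k + 1 < c.1) _ (hS.gt a (by simp)),
      Multiset.filter_cons_of_pos (p := fun c : Item K => k + 1 < c.1) _ (hS.gt b (by simp)),
      Multiset.filter_eq_nil.2 fun c hc => by rw [mem_items hc]; omega]
    rfl
  by_cases hmi : k + 1 < m.1
  · rw [Multiset.filter_singleton, if_pos hmi] at hfilter hu'
    have hab : (m = a ∧ T.filter (fun c => k + 1 < c.1) = {b}) ∨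
        (m = b ∧ T.filter (fun c => k + 1 < c.1) = {a}) := by
      rw [Multiset.singleton_add] at hfilter
      have hmem : m ∈ (a ::ₘ {b} : Multiset (Item K)) := hfilter ▸ Multiset.mem_cons_self m _
      rcases Multiset.mem_cons.1 hmem with rfl | hmb
      · exact .inl ⟨rfl, (Multiset.cons_inj_right m).1 hfilter⟩
      · obtain rfl := Multiset.mem_singleton.1 hmb
        refine .inr ⟨rfl, (Multiset.cons_inj_right m).1 (hfilter.trans ?_)⟩
        exact Multiset.cons_swap a m 0
    rcases hab with ⟨rfl, hTb⟩ | ⟨rfl, hTb⟩ <;> rw [hTb] at hw'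
    · obtain ⟨⟨p, q, g, gp, -, gv⟩, ⟨p', q', g', gp', -, gv'⟩⟩ := refine_two hv hs ht ih hf1 hx
        (Nat.lt_succ_self k) hu' hw' (Multiset.singleton_ne_zero _) (Multiset.singleton_ne_zero _)
      rw [fin hf hy g gp, fin hf' hy' g' gp', gv, gv']
    · obtain ⟨⟨p, q, g, gp, -, gv⟩, ⟨p', q', g', gp', -, gv'⟩⟩ := refine_two hv hs ht ih hf1 hx
        (Nat.lt_succ_self k) hu' hw' (Multiset.singleton_ne_zero _) (Multiset.singleton_ne_zero _)
      rw [fin hf' hy' g gp, fin hf hy g' gp', gv, gv']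
  · rw [Multiset.filter_singleton, if_neg hmi, Multiset.empty_eq_zero, zero_add] at hfilter
    rw [Multiset.filter_singleton, if_neg hmi, Multiset.empty_eq_zero] at hu'
    have hu0 : (nu K).src (k + 1) u = u := Rep.zero_iff.1 hu'
    rw [hfilter] at hw'
    have hwle : ∀ e, atomNeg K a.2 (k + 1) e + atomNeg K b.2 (k + 1) e ≤ w.neg (k + 1) e := by
      intro e
      have hsplit := congrArg (fun U => sN U (k + 1) e)
        (Multiset.filter_add_not (fun c => k + 1 < c.1) T).symm
      simp only [sN_add, hfilter, sN_cons, (sN_singleton b _).1, Finsupp.add_apply] at hsplit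
      rw [(hw.up (k + 1) (Nat.lt_succ_self k)).1, hsplit]
      have := (sN_nonneg (T.filter fun c => ¬ k + 1 < c.1) (k + 1) e).1
      omega
    have ea : Elig (k + 1) w a := fun e => by
      have := hwle e
      have := (atom_nonneg b.2 (k + 1) e).1
      omega
    have eb : Elig (k + 1) w b := fun e => by
      have := hwle e
      have := (atom_nonneg a.2 (k + 1) e).1
      omega
    obtain ⟨wa, wb, wc, we, hwa, hwb⟩ := hw'.peelN hK ea
    have hw2 : Rep (k + 1) w (b ::ₘ {a}) := by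
      rw [show (b ::ₘ {a} : Multiset (Item K)) = a ::ₘ {b} from Multiset.cons_swap b a 0]
      exact hw'
    obtain ⟨wb', wa', wc', we', hwb', hwa'⟩ := hw2.peelN hK eb
    obtain ⟨p, q, g, gp, -, gv⟩ := refine_left hv hs ht ih hf1 hx (Nat.lt_succ_self k) hu0
      hwa hwb wc we (Multiset.singleton_ne_zero _) (Multiset.singleton_ne_zero _)
    obtain ⟨p', q', g', gp', -, gv'⟩ := refine_left hv hs ht ih hf1 hx (Nat.lt_succ_self k) hu0
      hwb' hwa' wc' we' (Multiset.singleton_ne_zero _) (Multiset.singleton_ne_zero _)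
    rw [fin hf hy g gp, fin hf' hy' g' gp', gv, gv']

include hv hs ht ih in
/-- All factorisations along `i` starting with a single element have the value of the one
starting with a minimal element. -/
theorem single_first (hx : (nu K).src (n + 1) x = x) (hS : Rep i x S) (hin : i ≤ n)
    {a₀ : Item K} {y₀ z₀ : (nu K).Cell} (hf₀ : Fac x i y₀ z₀)
    (hy₀ : Rep i y₀ ({a₀} : Multiset (Item K)))
    (hel : ∀ (u : Cell K) (T : Multiset (Item K)), Rep i u T → T ≤ S → a₀ ∈ T → Elig i u a₀)
    (ha₀ : a₀ ∈ S) {y z : (nu K).Cell} {a : Item K} {Sz : Multiset (Item K)}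
    (hf : Fac x i y z) (hy : Rep i y ({a} : Multiset (Item K))) (hz : Rep i z Sz) :
    pv hK F v i y z = pv hK F v i y₀ z₀ := by
  rcases eq_or_ne a a₀ with rfl | hne
  · obtain ⟨rfl, rfl⟩ := comp_cancel hf.hc hf₀.hc (hf.comp_eq.trans hf₀.comp_eq.symm) hy hy₀
    rfl
  have hSe : S = a ::ₘ Sz := by
    refine hS.unique (hf.comp_eq ▸ ?_)
    simpa using hy.compN le_rfl hf.hc hz
  have hmem : a₀ ∈ Sz := by
    rw [hSe] at ha₀
    exact (Multiset.mem_cons.1 ha₀).resolve_left hne.symm
  obtain ⟨R, rfl⟩ := Multiset.exists_cons_of_mem hmem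
  have hz_le : a₀ ::ₘ R ≤ S := hSe ▸ Multiset.le_cons_self _ a
  obtain ⟨y₁, z₂, hc₁, he₁, hy₁, hz₂⟩ := hz.peelN hK (hel z _ hz hz_le hmem)
  rcases eq_or_ne R 0 with rfl | hR
  · have hz₀ : Rep i z₀ ({a} : Multiset (Item K)) := by
      obtain ⟨U, hU⟩ : ∃ U, Rep i z₀ U := by
        obtain ⟨u, w, huw, hux, hu, hw⟩ := (hSe ▸ hS : Rep i x (a ::ₘ a₀ ::ₘ 0)) |>
          (fun h => (show Rep i x (a₀ ::ₘ {a}) from by
            rw [show (a₀ ::ₘ {a} : Multiset (Item K)) = a ::ₘ a₀ ::ₘ 0 from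
              Multiset.cons_swap a₀ a 0]
            exact h).peelN hK (hel x _ hS le_rfl (by rw [hSe]; simp)))
        obtain ⟨-, rfl⟩ := comp_cancel huw hf₀.hc (hux.trans hf₀.comp_eq.symm) hu hy₀
        exact ⟨_, hw⟩
      have e := hS.unique (hf₀.comp_eq ▸ hy₀.compN le_rfl hf₀.hc hU)
      rw [hSe, Multiset.singleton_add] at e
      have : U = {a} := ((Multiset.cons_inj_right a₀).1 (e.symm.trans (Multiset.cons_swap a a₀ 0)))
      exact this ▸ hU
    exact core_two hv hs ht ih hx hne hf hf₀ hy (by simpa using hz) hy₀ hz₀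
  · obtain ⟨hy', hz'⟩ := hf.dims hx hin
    obtain ⟨hy₁', hz₂'⟩ := src_self_of_comp (show i ≤ n + 1 by omega) hc₁
      ((congrArg ((nu K).src (n + 1)) he₁).trans (hz'.trans he₁.symm))
    have c1 : (nu K).tgt i y = (nu K).src i y₁ := by
      rw [hf.hc, ← he₁, (nu K).src_comp i y₁ z₂ hc₁]
    have c2 : (nu K).tgt i ((nu K).comp i y y₁) = (nu K).src i z₂ := by
      rw [(nu K).tgt_comp i y y₁ c1]; exact hc₁
    have eP : (nu K).comp i ((nu K).comp i y y₁) z₂ = x := by
      rw [(nu K).assoc i y y₁ z₂ c1 hc₁, ← hf.comp_eq]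
      exact congrArg _ he₁
    have hP : Rep i ((nu K).comp i y y₁) (a₀ ::ₘ {a}) := by
      have := hy.compN le_rfl c1 hy₁
      rw [Multiset.singleton_add] at this
      exact (Multiset.cons_swap a a₀ 0) ▸ this
    have fP : Fac x i ((nu K).comp i y y₁) z₂ :=
      Fac.of_rep eP c2 hP hz₂ (Multiset.cons_ne_zero) hR
    have hPle : (a₀ ::ₘ {a} : Multiset (Item K)) ≤ S := by
      rw [hSe, show (a₀ ::ₘ {a} : Multiset (Item K)) = a ::ₘ {a₀} from Multiset.cons_swap a₀ a 0]
      exact Multiset.cons_le_cons a (by simp)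
    obtain ⟨p₀, p₁, pc, pe, hp₀, hp₁⟩ := hP.peelN hK (hel _ _ hP hPle (Multiset.mem_cons_self _ _))
    have c3 : (nu K).tgt i p₁ = (nu K).src i z₂ := by
      rw [← (nu K).tgt_comp i p₀ p₁ pc]
      exact (congrArg ((nu K).tgt i) pe).trans c2
    have c4 : (nu K).tgt i p₀ = (nu K).src i ((nu K).comp i p₁ z₂) := by
      rw [(nu K).src_comp i p₁ z₂ c3]; exact pc
    have e₀ : (nu K).comp i p₀ ((nu K).comp i p₁ z₂) = x := by
      rw [← (nu K).assoc i p₀ p₁ z₂ pc c3]
      exact (congrArg (fun t => (nu K).comp i t z₂) pe).trans eP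
    obtain ⟨rfl, rfl⟩ := comp_cancel c4 hf₀.hc (e₀.trans hf₀.comp_eq.symm) hp₀ hy₀
    obtain ⟨dP, -⟩ := fP.dims hx hin
    obtain ⟨dp₀, dp₁⟩ := src_self_of_comp (show i ≤ n + 1 by omega) pc
      ((congrArg ((nu K).src (n + 1)) pe).trans (dP.trans pe.symm))
    obtain ⟨-, dz₀⟩ := hf₀.dims hx hin
    have bd := fun (c : (nu K).Cell) (h : (nu K).src (n + 1) c = c) =>
      ((ev_val (hK := hK) (F := F) (v := v) c h).bd hv hs ht).2 i hin
    have v1 : val hK F v z = X.comp i (val hK F v y₁) (val hK F v z₂) := by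
      have := ih z hf.lt.2 hz'
      rw [← he₁] at this ⊢
      exact val_comp hv hs ht hin hy₁' hz₂' hc₁ this
    have v2 : val hK F v ((nu K).comp i y y₁)
        = X.comp i (val hK F v y) (val hK F v y₁) :=
      val_comp hv hs ht hin hy' hy₁' c1 (ih _ fP.lt.1 dP)
    have v3 : val hK F v ((nu K).comp i y y₁)
        = X.comp i (val hK F v p₀) (val hK F v p₁) := by
      have := ih _ fP.lt.1 dP
      rw [← pe] at this ⊢
      exact val_comp hv hs ht hin dp₀ dp₁ pc this
    have v4 := val_comp hv hs ht hin dp₁ hz₂' c3 (ih _ hf₀.lt.2 dz₀)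
    rw [pv, pv, v1, v4, ← X.assoc i _ _ _ (by rw [← (bd y hy').2, ← (bd y₁ hy₁').1, c1])
        (by rw [← (bd y₁ hy₁').2, ← (bd z₂ hz₂').1, hc₁]), ← v2, v3,
      X.assoc i _ _ _ (by rw [← (bd p₀ dp₀).2, ← (bd p₁ dp₁).1]; exact congrArg F.toFun pc)
        (by rw [← (bd p₁ dp₁).2, ← (bd z₂ hz₂').1, c3])]

include hv hs ht ih in
/-- All factorisations of `x` have the same value. -/
theorem fac_value (hx : (nu K).src (n + 1) x = x) (hs1 : Slim (i + 1) x) (hS : Rep i x S)
    (hcard : 2 ≤ Multiset.card S) :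
    ∃ c, ∀ j y z, j ≤ n → Fac x j y z → pv hK F v j y z = c := by
  have hne : S ≠ 0 := by rintro rfl; simp at hcard
  have hin := hS.le_of_dim hne hx
  obtain ⟨a₀, ha₀, hel⟩ := hS.exists_elig hK hne
  obtain ⟨T₀, hT₀⟩ := Multiset.exists_cons_of_mem ha₀
  obtain ⟨y₀, z₀, hc₀, he₀, hy₀, hz₀⟩ :=
    (hT₀ ▸ hS : Rep i x (a₀ ::ₘ T₀)).peelN hK (hel x _ hS le_rfl ha₀)
  have hT₀ne : T₀ ≠ 0 := by rintro rfl; rw [hT₀] at hcard; simp at hcard
  have hf₀ : Fac x i y₀ z₀ := Fac.of_rep he₀ hc₀ hy₀ hz₀ (Multiset.singleton_ne_zero _) hT₀ne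
  refine ⟨pv hK F v i y₀ z₀, ?_⟩
  have level : ∀ {y z : (nu K).Cell} {Sy Sz : Multiset (Item K)}, Fac x i y z → Rep i y Sy →
      Rep i z Sz → pv hK F v i y z = pv hK F v i y₀ z₀ := by
    intro y z Sy Sz hf hy hz
    have hSy : Sy ≠ 0 := fun e => hf.ne_left (Rep.zero_iff.1 (e ▸ hy))
    obtain ⟨a, ha, hea⟩ := hy.exists_elig hK hSy
    obtain ⟨R, rfl⟩ := Multiset.exists_cons_of_mem ha
    rcases eq_or_ne R 0 with rfl | hR
    · exact single_first hv hs ht ih hx hS hin hf₀ hy₀ hel ha₀ hf hy hz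
    obtain ⟨y₁, y₂, hc, rfl, hy₁, hy₂⟩ := hy.peelN hK (hea y _ hy le_rfl ha)
    have c1 : (nu K).tgt i y₂ = (nu K).src i z := by
      rw [← hf.hc]; exact ((nu K).tgt_comp i y₁ y₂ hc).symm
    have c2 : (nu K).tgt i y₁ = (nu K).src i ((nu K).comp i y₂ z) := by
      rw [(nu K).src_comp i y₂ z c1]; exact hc
    have ex : (nu K).comp i y₁ ((nu K).comp i y₂ z) = x := by
      rw [← (nu K).assoc i y₁ y₂ z hc c1]; exact hf.comp_eq
    have hz' : Rep i ((nu K).comp i y₂ z) (R + Sz) := hy₂.compN le_rfl c1 hz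
    have f1 : Fac x i y₁ ((nu K).comp i y₂ z) := Fac.of_rep ex c2 hy₁ hz'
      (Multiset.singleton_ne_zero _) fun h => hR (add_eq_zero.1 h).1
    obtain ⟨dy, dz⟩ := hf.dims hx hin
    obtain ⟨d1, d2⟩ := src_self_of_comp (show i ≤ n + 1 by omega) hc dy
    obtain ⟨-, d3⟩ := f1.dims hx hin
    have bd := fun (c : (nu K).Cell) (h : (nu K).src (n + 1) c = c) =>
      ((ev_val (hK := hK) (F := F) (v := v) c h).bd hv hs ht).2 i hin
    rw [← single_first hv hs ht ih hx hS hin hf₀ hy₀ hel ha₀ f1 hy₁ hz', pv, pv,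
      val_comp hv hs ht hin d2 dz c1 (ih _ f1.lt.2 d3)]
    have v1 := val_comp hv hs ht hin d1 d2 hc (ih _ hf.lt.1 dy)
    rw [← X.assoc i _ _ _ (by rw [← (bd y₁ d1).2, ← (bd y₂ d2).1]; exact congrArg F.toFun hc)
      (by rw [← (bd y₂ d2).2, ← (bd z dz).1, c1])]
    exact congrArg (fun t => X.comp i t _) v1
  intro j y z hj hf
  have hji : j ≤ i := by
    by_contra hji
    have hsj : Slim j x := hs1.mono (by omega)
    rw [← hf.comp_eq] at hsj
    rcases (hsj.split hK le_rfl hf.hc).1 with h | h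
    exacts [hf.ne_left h, hf.ne_right h]
  obtain ⟨-, sy, sz⟩ := Slim.split hK (show j ≤ i + 1 by omega) hf.hc
    (show Slim (i + 1) ((nu K).comp j y z) by rw [hf.comp_eq]; exact hs1)
  obtain ⟨Sy, hy⟩ := sy.exists_rep hK
  obtain ⟨Sz, hz⟩ := sz.exists_rep hK
  rcases hji.lt_or_eq with hlt | rfl
  swap
  · exact level hf hy hz
  have hsum : S = Sy + Sz := hS.unique (hf.comp_eq ▸ hy.compN hji hf.hc hz)
  rcases eq_or_ne Sy 0 with rfl | hSy
  · rw [zero_add] at hsum
    obtain ⟨a, ha, hea⟩ := hz.exists_elig hK (hsum ▸ hne)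
    obtain ⟨R, rfl⟩ := Multiset.exists_cons_of_mem ha
    have hR : R ≠ 0 := by rintro rfl; rw [hsum] at hcard; simp at hcard
    obtain ⟨z₁, z₂, hc, he, hz₁, hz₂⟩ := hz.peelN hK (hea z _ hz le_rfl ha)
    obtain ⟨p, q, g, gp, gq, gv⟩ := refine_left hv hs ht ih hf hx hlt (Rep.zero_iff.1 hy)
      hz₁ hz₂ hc he (Multiset.singleton_ne_zero _) hR
    rw [← gv]
    exact level g gp gq
  rcases eq_or_ne Sz 0 with rfl | hSz
  · rw [add_zero] at hsum
    obtain ⟨a, ha, hea⟩ := hy.exists_elig hK hSy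
    obtain ⟨R, rfl⟩ := Multiset.exists_cons_of_mem ha
    have hR : R ≠ 0 := by rintro rfl; rw [hsum] at hcard; simp at hcard
    obtain ⟨y₁, y₂, hc, he, hy₁, hy₂⟩ := hy.peelN hK (hea y _ hy le_rfl ha)
    obtain ⟨p, q, g, gp, gq, gv⟩ := refine_right hv hs ht ih hf hx hlt (Rep.zero_iff.1 hz)
      hy₁ hy₂ hc he (Multiset.singleton_ne_zero _) hR
    rw [← gv]
    exact level g gp gq
  obtain ⟨⟨p, q, g, gp, gq, gv⟩, -⟩ := refine_two hv hs ht ih hf hx hlt hy hz hSy hSz
  rw [← gv]
  exact level g gp gq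

include hv hs ht in
/-- The value is unique. -/
theorem uniq_all (x : (nu K).Cell) (hx : (nu K).src (n + 1) x = x) : Uniq hK F v x := by
  induction x using smaller_wf.induction with
  | _ x ih =>
  by_cases hlow : (nu K).src n x = x
  · exact fun w hw => (hw.eq_of_low hlow).trans (val_low hlow).symm
  rcases exists_level hK x with h0 | ⟨i, S, hs1, hS, hcard⟩
  · obtain ⟨p, b, rfl⟩ := h0.eq_atom hK
    intro w hw
    have hp : p = n + 1 := by
      rcases lt_trichotomy p (n + 1) with hp | hp | hp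
      · exact absurd (src_self_le (atom_src_self hK b) (by omega)) hlow
      · exact hp
      · exact absurd hx (atom_src_ne hK b hp)
    subst hp
    have : ∀ u t, Ev hK F v u t → u = atom hK b → t = v b := by
      intro u t h e
      cases h with
      | low _ hu => rw [e] at hu; exact absurd hu hlow
      | gen b' => rw [atom_injective hK e]
      | comp j y z a c hj _ _ hy hz hc _ _ =>
        exact absurd e.symm (atom_not_comp hK (Nat.succ_pos n) b hc hy hz)
    rw [this _ w hw rfl, this _ _ (ev_val (hK := hK) (F := F) (v := v) _ hx) rfl]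
  · obtain ⟨c, hc⟩ := fac_value hv hs ht ih hx hs1 hS hcard
    have : ∀ u t, Ev hK F v u t → u = x → t = c := by
      intro u t h e
      cases h with
      | low _ hu => rw [e] at hu; exact absurd hu hlow
      | gen b' =>
        have h0 : Slim i (atom hK b') :=
          Slim.mono ⟨_, atom_rep hK b' (Nat.succ_pos n), by simp⟩ (Nat.zero_le i)
        rw [e] at h0
        obtain ⟨T, hT, hT1⟩ := h0
        rw [hS.unique hT] at hcard
        omega
      | comp j y z a c' hj dy dz hy hz hc' ha hb =>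
        have hf : Fac x j y z := ⟨e, hc', hy, hz⟩
        rw [ih y hf.lt.1 dy a ha, ih z hf.lt.2 dz c' hb]
        exact hc j y z hj hf
    intro w hw
    rw [this _ w hw rfl, this _ _ (ev_val (hK := hK) (F := F) (v := v) _ hx) rfl]

variable (hK F v) in
/-- The extension by one dimension. -/
def extend : FunUpTo K X (n + 1) where
  toFun := val hK F v
  map_src i x hx := by
    obtain ⟨h1, h2⟩ := (ev_val (hK := hK) (F := F) (v := v) x hx).bd hv hs ht
    rcases le_or_gt i n with hi | hi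
    · rw [val_low (src_self_le ((nu K).src_src i x) hi)]
      exact (h2 i hi).1
    · rw [src_self_le hx hi, src_self_le h1 hi]
  map_tgt i x hx := by
    obtain ⟨h1, h2⟩ := (ev_val (hK := hK) (F := F) (v := v) x hx).bd hv hs ht
    rcases le_or_gt i n with hi | hi
    · rw [val_low (src_self_le ((nu K).src_tgt i x) hi)]
      exact (h2 i hi).2
    · rw [tgt_eq_self (src_self_le hx hi), tgt_eq_self (src_self_le h1 hi)]
  map_comp i x y hx hy hc := by
    rcases le_or_gt i n with hi | hi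
    · exact val_comp hv hs ht hi hx hy hc
        (uniq_all hv hs ht _ (dim_comp (by omega) hx hy hc))
    · have e1 := src_self_le hx hi
      have e2 := src_self_le hy hi
      have e : x = y := by rw [← tgt_eq_self e1, hc, e2]
      subst e
      obtain ⟨h1, -⟩ := (ev_val (hK := hK) (F := F) (v := v) x hx).bd hv hs ht
      nth_rw 1 [← e1]
      rw [(nu K).unit_left]
      nth_rw 2 [← src_self_le h1 hi]
      rw [X.unit_left]

theorem extend_low {x : (nu K).Cell} (hx : (nu K).src n x = x) :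
    (extend hK F v hv hs ht).toFun x = F.toFun x := val_low hx

theorem extend_atom (b : K.B (n + 1)) :
    (extend hK F v hv hs ht).toFun (atom hK b) = v b :=
  (uniq_all hv hs ht _ (atom_src_self hK b) _ (.gen b)).symm

end

end Vale.Agent.P213.Steiner
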