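import Vale.Agent.P213.Steiner.Extend

/-!
# P213: Steiner's theorem: good complexes give omega-categories freely generated by their atoms
-/

open CategoryTheory

noncomputable section

namespace Vale.Agent.P213.Steiner

variable {K L : Cx} {X Y : OmegaCat} {n : ℕ}

/-- A functor, restricted. -/
def FunUpTo.ofHom (F : nu K ⟶ X) (n : ℕ) : FunUpTo K X n where
  toFun := F.toFun
  map_src i x _ := F.map_src i x
  map_tgt i x _ := F.map_tgt i x
  map_comp i x y _ _ h := F.map_comp i x y h

/-- Restriction along a chain map. -/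
def FunUpTo.comap (F : FunUpTo K X n) (f : CxHom L K) : FunUpTo L X n where
  toFun x := F.toFun ((nuMap f).toFun x)
  map_src i x h := by rw [(nuMap f).map_src, F.map_src i _ (by rw [← (nuMap f).map_src, h])]
  map_tgt i x h := by rw [(nuMap f).map_tgt, F.map_tgt i _ (by rw [← (nuMap f).map_src, h])]
  map_comp i x y hx hy h := by
    rw [(nuMap f).map_comp i x y h, F.map_comp i _ _ (by rw [← (nuMap f).map_src, hx])
      (by rw [← (nuMap f).map_src, hy]) (by rw [← (nuMap f).map_tgt, ← (nuMap f).map_src, h])]

/-- Restriction to a lower dimension. -/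
def FunUpTo.restrict {m : ℕ} (F : FunUpTo K X n) (h : m ≤ n) : FunUpTo K X m where
  toFun := F.toFun
  map_src i x hx := F.map_src i x (src_self_le hx h)
  map_tgt i x hx := F.map_tgt i x (src_self_le hx h)
  map_comp i x y hx hy hc := F.map_comp i x y (src_self_le hx h) (src_self_le hy h) hc

theorem src_eq_self_of_isEmpty (h : ∀ q, n < q → IsEmpty (K.B q)) (x : (nu K).Cell) :
    (nu K).src n x = x :=
  (src_eq_self_iff n x).2 fun q hq => by
    have := h q hq
    exact ⟨Subsingleton.elim _ _, Subsingleton.elim _ _⟩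

/-- A chain map which is injective on bases preserves atoms. -/
theorem map_atom (hL : Good L) (hK : Good K) (f : CxHom L K) (g : ∀ q, L.B q → K.B q)
    (hg : ∀ q, Function.Injective (g q)) (hf : ∀ q c, f.f q c = Finsupp.single (g q c) 1)
    {q : ℕ} (c : L.B q) : (nuMap f).toFun (atom hL c) = atom hK (g q c) := by
  have happ : ∀ p (v : L.B p →₀ ℤ), f.app p v = v.mapDomain (g p) := fun p v => by
    rw [CxHom.app_apply, Finsupp.mapDomain]
    refine Finsupp.sum_congr fun a _ => ?_
    rw [hf]
    simp
  have key : ∀ p, f.app p (atomNeg L c p) = atomNeg K (g q c) p ∧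
      f.app p (atomPos L c p) = atomPos K (g q c) p := by
    intro p
    induction hk : q + 1 - p using Nat.strong_induction_on generalizing p with
    | _ k ih =>
    rcases lt_trichotomy p q with hp | rfl | hp
    · obtain ⟨a1, a2⟩ := ih (q + 1 - (p + 1)) (by omega) (p + 1) rfl
      obtain ⟨n1, p1⟩ := down_step hp (Finsupp.single c (1 : ℤ))
      obtain ⟨n2, p2⟩ := down_step hp (Finsupp.single (g q c) (1 : ℤ))
      simp only [atomNeg, atomPos] at a1 a2 ⊢
      rw [n1, p1, n2, p2, happ, happ, ← negP_mapDomain (hg p), ← posP_mapDomain (hg p), ← happ,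
        ← happ, ← f.bd_app, ← f.bd_app, a1, a2]
      exact ⟨rfl, rfl⟩
    · simp [atomNeg_self, CxHom.app_single, hf]
    · obtain ⟨n1, p1⟩ := down_above hp (Finsupp.single c (1 : ℤ))
      obtain ⟨n2, p2⟩ := down_above hp (Finsupp.single (g q c) (1 : ℤ))
      simp [atomNeg, atomPos, n1, p1, n2, p2]
  exact Cell.ext' key

theorem eq_atom_zero (hK : Good K) {x : (nu K).Cell} (h : (nu K).src 0 x = x) :
    ∃ b : K.B 0, x = atom hK b := by
  obtain ⟨p, b, rfl⟩ := Slim.eq_atom hK ⟨0, Rep.zero_iff.2 h, by simp⟩
  rcases Nat.eq_zero_or_pos p with rfl | hp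
  · exact ⟨b, rfl⟩
  · exact absurd h (atom_src_ne hK b hp)

theorem comp_self_of_le {A : OmegaCat} {i m : ℕ} {x y : A.Cell} (him : m ≤ i)
    (hx : A.src m x = x) (hy : A.src m y = y) (hc : A.tgt i x = A.src i y) :
    x = y ∧ A.comp i x y = x := by
  have e1 := src_self_le hx him
  have e : x = y := by rw [← tgt_eq_self e1, hc, src_self_le hy him]
  subst e
  refine ⟨rfl, ?_⟩
  have := A.unit_left i x
  rwa [e1] at this

/-- Generation, relative form. -/
theorem FunUpTo.ext_atoms (hK : Good K) (F G : FunUpTo K X n)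
    (h : ∀ q ≤ n, ∀ b : K.B q, F.toFun (atom hK b) = G.toFun (atom hK b))
    (x : (nu K).Cell) (hx : (nu K).src n x = x) : F.toFun x = G.toFun x := by
  induction x using smaller_wf.induction with
  | _ x ih =>
  rcases exists_level hK x with h0 | ⟨i, S, -, hS, hcard⟩
  · obtain ⟨p, b, rfl⟩ := h0.eq_atom hK
    refine h p ?_ b
    by_contra hp
    exact atom_src_ne hK b (by omega) hx
  · have hne : S ≠ 0 := by rintro rfl; simp at hcard
    obtain ⟨a, ha, he⟩ := hS.exists_elig hK hne
    obtain ⟨T, rfl⟩ := Multiset.exists_cons_of_mem ha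
    obtain ⟨y, z, hc, e, hy, hz⟩ := hS.peelN hK (he x _ hS le_rfl ha)
    have hi : i ≤ n := by
      by_contra hni
      exact hne (hS.eq_zero (src_self_le hx (by omega)))
    have hT : T ≠ 0 := by rintro rfl; simp at hcard
    obtain ⟨s1, s2⟩ := smaller_of_comp hc (fun h => Multiset.singleton_ne_zero a (hy.eq_zero h))
      (fun h => hT (hz.eq_zero h))
    obtain ⟨dy, dz⟩ := src_self_of_comp hi hc ((congrArg ((nu K).src n) e).trans (hx.trans e.symm))
    subst e
    rw [F.map_comp i y z dy dz hc, G.map_comp i y z dy dz hc, ih y s1 dy, ih z s2 dz]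

/-- Generation: two functors that agree on atoms are equal. -/
theorem hom_ext (hK : Good K) (F G : nu K ⟶ X)
    (h : ∀ q (b : K.B q), F.toFun (atom hK b) = G.toFun (atom hK b)) : F = G := by
  refine OmegaCat.Hom.ext (funext fun x => ?_)
  obtain ⟨N, hN⟩ := (nu K).finite_dim x
  exact FunUpTo.ext_atoms hK (.ofHom F N) (.ofHom G N) (fun q _ b => h q b) x hN

section

variable (hK : Good K) (v : ∀ q, K.B q → X.Cell)
  (hdim : ∀ q b, X.src q (v q b) = v q b)
  (hbd : ∀ q (b : K.B (q + 1)) (F : FunUpTo K X q),
    (∀ p ≤ q, ∀ c : K.B p, F.toFun (atom hK c) = v p c) →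
      X.src q (v (q + 1) b) = F.toFun ((nu K).src q (atom hK b)) ∧
      X.tgt q (v (q + 1) b) = F.toFun ((nu K).tgt q (atom hK b)))

include hdim hbd in
theorem exists_funUpTo (m : ℕ) :
    ∃ F : FunUpTo K X m, ∀ p ≤ m, ∀ c : K.B p, F.toFun (atom hK c) = v p c := by
  induction m with
  | zero =>
    choose b hb using fun x : (nu K).Cell => eq_atom_zero hK ((nu K).src_src 0 x)
    have hfix : ∀ i c, X.src i (v 0 c) = v 0 c := fun i c => src_self_le (hdim 0 c) (Nat.zero_le i)
    refine ⟨⟨fun x => v 0 (b x), fun i x hx => ?_, fun i x hx => ?_, fun i x y hx hy hc => ?_⟩,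
      fun p hp c => ?_⟩
    · rw [src_self_le hx (Nat.zero_le i), hfix]
    · rw [tgt_eq_self (src_self_le hx (Nat.zero_le i)), tgt_eq_self (hfix i _)]
    · obtain ⟨rfl, hxy⟩ := comp_self_of_le (Nat.zero_le i) hx hy hc
      rw [hxy]
      have := X.unit_left i (v 0 (b x))
      rw [hfix] at this
      exact this.symm
    · obtain rfl : p = 0 := by omega
      show v 0 (b (atom hK c)) = v 0 c
      congr 1
      exact (atom_injective hK (((atom_src_self hK c).symm).trans (hb _))).symm
  | succ m ih =>
    obtain ⟨F, hF⟩ := ih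
    refine ⟨extend hK F (v (m + 1)) (hdim (m + 1)) (fun b => (hbd m b F hF).1)
      (fun b => (hbd m b F hF).2), fun p hp c => ?_⟩
    rcases hp.lt_or_eq with hlt | rfl
    · rw [extend_low _ _ _ (src_self_le (atom_src_self hK c) (by omega))]
      exact hF p (by omega) c
    · exact extend_atom _ _ _ c

include hdim hbd in
/-- Freeness: compatible values on atoms extend uniquely. The compatibility is tested against an
arbitrary assignment which is functorial up to dimension `q` and takes the given values there. -/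
theorem exists_lift : ∃! F : nu K ⟶ X, ∀ q (b : K.B q), F.toFun (atom hK b) = v q b := by
  choose F hF using exists_funUpTo hK v hdim hbd
  choose N hN using (nu K).finite_dim
  set G : (nu K).Cell → X.Cell := fun x => (F (N x)).toFun x
  have key : ∀ m x, (nu K).src m x = x → (F m).toFun x = G x := by
    intro m x hx
    have a : ∀ {p q : ℕ}, p ≤ q → (nu K).src p x = x → (F q).toFun x = (F p).toFun x :=
      fun {p q} hpq hp => FunUpTo.ext_atoms hK ((F q).restrict hpq) (F p)
        (fun r hr c => (hF q r (hr.trans hpq) c).trans (hF p r hr c).symm) x hp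
    rcases le_total m (N x) with h | h
    · exact (a h hx).symm
    · exact a h (hN x)
  have dim : ∀ i x, (nu K).src (N x) ((nu K).src i x) = (nu K).src i x ∧
      (nu K).src (N x) ((nu K).tgt i x) = (nu K).tgt i x := fun i x => by
    rcases le_or_gt i (N x) with h | h
    · exact ⟨src_self_le ((nu K).src_src i x) h, src_self_le ((nu K).src_tgt i x) h⟩
    · have e := src_self_le (hN x) h.le
      rw [e, tgt_eq_self e]
      exact ⟨hN x, hN x⟩
  refine ⟨⟨G, fun i x => ?_, fun i x => ?_, fun i x y hc => ?_⟩, fun q b => ?_, fun H hH => ?_⟩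
  · rw [← key (N x) _ (dim i x).1, (F (N x)).map_src i x (hN x)]
  · rw [← key (N x) _ (dim i x).2, (F (N x)).map_tgt i x (hN x)]
  · set m := max (N x) (N y)
    have hx := src_self_le (hN x) (le_max_left (N x) (N y))
    have hy := src_self_le (hN y) (le_max_right (N x) (N y))
    have hd : (nu K).src m ((nu K).comp i x y) = (nu K).comp i x y := by
      rcases lt_or_ge i m with h | h
      · exact dim_comp h hx hy hc
      · rw [(comp_self_of_le h hx hy hc).2]; exact hx
    rw [← key m _ hd, ← key m x hx, ← key m y hy, (F m).map_comp i x y hx hy hc]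
  · exact (key q _ (atom_src_self hK b)).symm.trans (hF q q le_rfl b)
  · refine hom_ext hK _ _ fun q b => (hH q b).trans ?_
    exact ((key q _ (atom_src_self hK b)).symm.trans (hF q q le_rfl b)).symm

end

/-- Gluing along subcomplexes given by injections of bases. -/
theorem exists_glue (hK : Good K) {ι : Type} (L : ι → Cx) (hL : ∀ i, Good (L i))
    (f : ∀ i, CxHom (L i) K) (g : ∀ i q, (L i).B q → K.B q)
    (hg : ∀ i q, Function.Injective (g i q))
    (hf : ∀ i q c, (f i).f q c = Finsupp.single (g i q c) 1)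
    (cover : ∀ q (b : K.B q), ∃ i c, g i q c = b) (φ : ∀ i, nu (L i) ⟶ X)
    (compat : ∀ i j q c c', g i q c = g j q c' →
      (φ i).toFun (atom (hL i) c) = (φ j).toFun (atom (hL j) c')) :
    ∃! F : nu K ⟶ X, ∀ i, nuMap (f i) ≫ F = φ i := by
  choose ix cx hcx using cover
  set v : ∀ q, K.B q → X.Cell := fun q b => (φ (ix q b)).toFun (atom (hL _) (cx q b)) with hv
  have hval : ∀ i q c, v q (g i q c) = (φ i).toFun (atom (hL i) c) := fun i q c =>
    compat _ i q _ c (hcx q (g i q c))
  have hatom : ∀ i q c, (nuMap (f i)).toFun (atom (hL i) c) = atom hK (g i q c) :=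
    fun i q c => map_atom (hL i) hK (f i) (g i) (hg i) (hf i) c
  obtain ⟨F, hF, huniq⟩ := exists_lift hK v
    (fun q b => by simp only [hv]; rw [← (φ _).map_src, atom_src_self])
    (fun q b F hF => by
      set i := ix (q + 1) b
      set c := cx (q + 1) b
      have hag := FunUpTo.ext_atoms (hL i) (F.comap (f i)) (.ofHom (φ i) q) fun p hp c' => by
        show F.toFun ((nuMap (f i)).toFun (atom (hL i) c')) = _
        rw [hatom, hF p hp, hval]
        rfl
      have e : atom hK b = (nuMap (f i)).toFun (atom (hL i) c) := by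
        rw [hatom]
        exact congrArg (atom hK) (hcx (q + 1) b).symm
      constructor
      · rw [e, ← (nuMap (f i)).map_src]
        exact ((φ i).map_src q _).symm.trans (hag _ ((nu (L i)).src_src q _)).symm
      · rw [e, ← (nuMap (f i)).map_tgt]
        exact ((φ i).map_tgt q _).symm.trans (hag _ ((nu (L i)).src_tgt q _)).symm)
  refine ⟨F, fun i => hom_ext (hL i) _ _ fun q c => ?_, fun G hG => huniq G fun q b => ?_⟩
  · show F.toFun ((nuMap (f i)).toFun (atom (hL i) c)) = _
    rw [hatom, hF, hval]
  · show G.toFun (atom hK b) = _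
    conv_lhs => rw [← hcx q b, ← hatom]
    exact congrArg (fun T => OmegaCat.Hom.toFun T (atom (hL _) (cx q b))) (hG (ix q b))

end Vale.Agent.P213.Steiner
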