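import Vale.Agent.P213.Steiner.Atom

/-!
# P213: cells as sums of atoms above a level

`Rep j x S`: above level `j` the cell `x` is the sum of the atoms of the multiset `S` of basis
elements of dimension `> j`. Such an `S` is unique, and a minimal element of it can be split off.
-/

open CategoryTheory

noncomputable section

namespace Vale.Agent.P213.Steiner

variable {K : Cx}

/-- Basis elements of all degrees. -/
abbrev Item (K : Cx) : Type := Σ q, K.B q

/-- Sum of the negative atom chains. -/
def sN (S : Multiset (Item K)) (q : ℕ) : K.B q →₀ ℤ := (S.map fun a => atomNeg K a.2 q).sum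

/-- Sum of the positive atom chains. -/
def sP (S : Multiset (Item K)) (q : ℕ) : K.B q →₀ ℤ := (S.map fun a => atomPos K a.2 q).sum

@[simp] theorem sN_zero (q : ℕ) : sN (0 : Multiset (Item K)) q = 0 := rfl

@[simp] theorem sP_zero (q : ℕ) : sP (0 : Multiset (Item K)) q = 0 := rfl

@[simp] theorem sN_cons (a : Item K) (S : Multiset (Item K)) (q : ℕ) :
    sN (a ::ₘ S) q = atomNeg K a.2 q + sN S q := by simp [sN]

@[simp] theorem sP_cons (a : Item K) (S : Multiset (Item K)) (q : ℕ) :
    sP (a ::ₘ S) q = atomPos K a.2 q + sP S q := by simp [sP]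

@[simp] theorem sN_add (S T : Multiset (Item K)) (q : ℕ) :
    sN (S + T) q = sN S q + sN T q := by simp [sN]

@[simp] theorem sP_add (S T : Multiset (Item K)) (q : ℕ) :
    sP (S + T) q = sP S q + sP T q := by simp [sP]

theorem sN_nonneg (S : Multiset (Item K)) (q : ℕ) (c : K.B q) :
    0 ≤ sN S q c ∧ 0 ≤ sP S q c := by
  induction S using Multiset.induction_on with
  | empty => simp
  | cons a S ih =>
    have := atom_nonneg a.2 q c
    simp only [sN_cons, sP_cons, Finsupp.add_apply]
    omega

theorem sN_eq_zero {S : Multiset (Item K)} {q : ℕ} (h : ∀ a ∈ S, a.1 < q) :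
    sN S q = 0 ∧ sP S q = 0 := by
  induction S using Multiset.induction_on with
  | empty => simp
  | cons a S ih =>
    have ha := down_above (h a (Multiset.mem_cons_self a S)) (Finsupp.single a.2 (1 : ℤ))
    obtain ⟨h1, h2⟩ := ih fun b hb => h b (Multiset.mem_cons_of_mem hb)
    simp [h1, h2, atomNeg, atomPos, ha]

theorem atomNeg_self {p : ℕ} (b : K.B p) :
    atomNeg K b p = Finsupp.single b 1 ∧ atomPos K b p = Finsupp.single b 1 := down_top p _

theorem le_sN {S : Multiset (Item K)} {a : Item K} (ha : a ∈ S) (q : ℕ) (c : K.B q) :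
    atomNeg K a.2 q c ≤ sN S q c ∧ atomPos K a.2 q c ≤ sP S q c := by
  obtain ⟨T, rfl⟩ := Multiset.exists_cons_of_mem ha
  have := sN_nonneg T q c
  simp only [sN_cons, sP_cons, Finsupp.add_apply]
  omega

/-- An element of the top dimension is seen in the sums. -/
theorem sN_pos_of_mem {S : Multiset (Item K)} {a : Item K} (ha : a ∈ S) :
    0 < sN S a.1 a.2 ∧ 0 < sP S a.1 a.2 := by
  have h1 := le_sN ha a.1 a.2
  rw [(atomNeg_self a.2).1, (atomNeg_self a.2).2, Finsupp.single_eq_same] at h1
  omega

theorem sN_apply_top (S : Multiset (Item K)) {p : ℕ} (b : K.B p) (h : ∀ a ∈ S, a.1 ≤ p)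
    (hb : 0 < sN S p b) : (⟨p, b⟩ : Item K) ∈ S := by
  induction S using Multiset.induction_on with
  | empty => simp at hb
  | cons a S ih =>
    rw [Multiset.mem_cons]
    by_contra hne
    push Not at hne
    obtain ⟨h1, h2⟩ := hne
    have h0 : atomNeg K a.2 p b = 0 := by
      rcases (h a (Multiset.mem_cons_self a S)).lt_or_eq with hlt | heq
      · simp [atomNeg, down_above hlt]
      · obtain ⟨q, c⟩ := a
        obtain rfl : q = p := heq
        rw [(atomNeg_self c).1]
        exact Finsupp.single_eq_of_ne fun hc => h1 (by rw [hc])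
    rw [sN_cons, Finsupp.add_apply, h0, zero_add] at hb
    exact h2 (ih (fun c hc => h c (Multiset.mem_cons_of_mem hc)) hb)

/-- The items of a chain. -/
def items {q : ℕ} (r : K.B q →₀ ℤ) : Multiset (Item K) :=
  ∑ c ∈ r.support, Multiset.replicate (r c).toNat ⟨q, c⟩

theorem mem_items {q : ℕ} {r : K.B q →₀ ℤ} {a : Item K} (h : a ∈ items r) : a.1 = q := by
  simp only [items, Multiset.mem_sum, Multiset.mem_replicate] at h
  obtain ⟨c, -, -, rfl⟩ := h
  rfl

theorem sN_items {q : ℕ} {r : K.B q →₀ ℤ} (hr : ∀ c, 0 ≤ r c) :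
    sN (items r) q = r ∧ sP (items r) q = r := by
  have key : ∀ s : Finset (K.B q),
      sN (∑ c ∈ s, Multiset.replicate (r c).toNat (⟨q, c⟩ : Item K)) q
          = ∑ c ∈ s, Finsupp.single c (r c) ∧
        sP (∑ c ∈ s, Multiset.replicate (r c).toNat (⟨q, c⟩ : Item K)) q
          = ∑ c ∈ s, Finsupp.single c (r c) := by
    classical
    intro s
    induction s using Finset.induction_on with
    | empty => simp
    | insert c s hc ih =>
      simp only [Finset.sum_insert hc, sN_add, sP_add, ih.1, ih.2]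
      simp [sN, sP, atomNeg_self c, Int.toNat_of_nonneg (hr c)]
  obtain ⟨h1, h2⟩ := key r.support
  have h : ∑ c ∈ r.support, Finsupp.single c (r c) = r := Finsupp.sum_single r
  exact ⟨h1.trans h, h2.trans h⟩

theorem Cell.neg_eq_pos (x : Cell K) {p : ℕ} (hp : x.neg (p + 1) = 0) : x.neg p = x.pos p := by
  have := x.bdry_neg p
  rw [hp, map_zero] at this
  exact (sub_eq_zero.1 this.symm).symm

/-- A cell is fixed by the source of dimension `n` when it vanishes above. -/
theorem src_eq_self_iff (n : ℕ) (x : Cell K) :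
    x.src n = x ↔ ∀ q, n < q → x.neg q = 0 ∧ x.pos q = 0 := by
  constructor
  · intro h q hq
    rw [← h]
    simp [Cell.src, show ¬ q ≤ n by omega, show ¬ q < n by omega, show ¬ q = n by omega]
  · intro h
    refine Cell.ext' fun q => ?_
    rcases lt_trichotomy q n with hq | rfl | hq
    · simp [Cell.src, hq, hq.le]
    · simp [Cell.src, x.neg_eq_pos (h (q + 1) (by omega)).1]
    · simp [Cell.src, show ¬ q ≤ n by omega, show ¬ q < n by omega, show ¬ q = n by omega, h q hq]

/-- A cell not of dimension `n` has a top chain above `n`. -/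
theorem exists_top {n : ℕ} {x : Cell K} (h : x.src n ≠ x) :
    ∃ p, n < p ∧ (∀ q, p < q → x.neg q = 0 ∧ x.pos q = 0) ∧ x.neg p = x.pos p ∧
      x.neg p ≠ 0 := by
  classical
  obtain ⟨N, hN⟩ := x.bounded
  rw [Ne, src_eq_self_iff] at h
  push Not at h
  obtain ⟨q₀, hq₀, hne⟩ := h
  have hex : ∃ p, ∀ q, p < q → x.neg q = 0 ∧ x.pos q = 0 := ⟨N, fun q hq => hN q hq.le⟩
  have hp := Nat.find_spec hex
  have hnp : n < Nat.find hex := by
    by_contra hle
    obtain ⟨h1, h2⟩ := hp q₀ (by omega)
    exact (hne h1) h2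
  refine ⟨_, hnp, hp, x.neg_eq_pos (hp _ (Nat.lt_succ_self _)).1, fun h0 => ?_⟩
  refine Nat.find_min hex (Nat.sub_one_lt (by omega : Nat.find hex ≠ 0)) fun q hq => ?_
  rcases (by omega : q = Nat.find hex ∨ Nat.find hex < q) with rfl | hlt
  · exact ⟨h0, (x.neg_eq_pos (hp _ (Nat.lt_succ_self _)).1).symm.trans h0⟩
  · exact hp q hlt

/-- Above level `j` the cell is the sum of the atoms of `S`. -/
structure Rep (j : ℕ) (x : Cell K) (S : Multiset (Item K)) : Prop where
  up : ∀ q, j < q → x.neg q = sN S q ∧ x.pos q = sP S q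
  gt : ∀ a ∈ S, j < a.1

theorem Rep.zero_iff {j : ℕ} {x : Cell K} : Rep j x 0 ↔ x.src j = x := by
  rw [src_eq_self_iff]
  refine ⟨fun h q hq => by simpa using h.up q hq, fun h => ⟨fun q hq => ?_, by simp⟩⟩
  simpa using h q hq

theorem Rep.eq_zero {j : ℕ} {x : Cell K} {S : Multiset (Item K)} (h : Rep j x S)
    (hx : x.src j = x) : S = 0 := by
  refine Multiset.eq_zero_of_forall_notMem fun a ha => ?_
  have h1 := (sN_pos_of_mem ha).1
  rw [← (h.up _ (h.gt a ha)).1, ((src_eq_self_iff j x).1 hx _ (h.gt a ha)).1] at h1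
  simp at h1

theorem exists_max_dim {S : Multiset (Item K)} (h : S ≠ 0) :
    ∃ a ∈ S, ∀ b ∈ S, b.1 ≤ a.1 := by
  induction S using Multiset.induction_on with
  | empty => exact absurd rfl h
  | cons a S ih =>
    rcases eq_or_ne S 0 with rfl | hS
    · exact ⟨a, by simp, by simp⟩
    · obtain ⟨m, hm, hmax⟩ := ih hS
      by_cases hle : a.1 ≤ m.1
      · exact ⟨m, Multiset.mem_cons_of_mem hm, fun b hb =>
          (Multiset.mem_cons.1 hb).elim (fun e => e ▸ hle) (hmax b)⟩
      · exact ⟨a, Multiset.mem_cons_self a S, fun b hb =>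
          (Multiset.mem_cons.1 hb).elim (fun e => e ▸ le_rfl) fun hb => (hmax b hb).trans (by omega)⟩

/-- The sums determine the multiset. -/
theorem eq_of_sN_eq {j : ℕ} {S T : Multiset (Item K)} (hS : ∀ a ∈ S, j < a.1)
    (hT : ∀ a ∈ T, j < a.1) (h : ∀ q, j < q → sN S q = sN T q) : S = T := by
  classical
  induction hn : Multiset.card S + Multiset.card T using Nat.strong_induction_on generalizing S T with
  | _ n ih =>
  rcases eq_or_ne (S + T) 0 with h0 | h0
  · obtain ⟨rfl, rfl⟩ := (add_eq_zero.1 h0 : S = 0 ∧ T = 0)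
    rfl
  obtain ⟨a, ha, hmax⟩ := exists_max_dim h0
  have hj : j < a.1 := (Multiset.mem_add.1 ha).elim (hS a) (hT a)
  have hboth : a ∈ S ∧ a ∈ T := by
    rcases Multiset.mem_add.1 ha with hm | hm
    · refine ⟨hm, sN_apply_top T a.2 (fun b hb => hmax b (Multiset.mem_add.2 (.inr hb))) ?_⟩
      exact h a.1 hj ▸ (sN_pos_of_mem hm).1
    · refine ⟨sN_apply_top S a.2 (fun b hb => hmax b (Multiset.mem_add.2 (.inl hb))) ?_, hm⟩
      exact (h a.1 hj).symm ▸ (sN_pos_of_mem hm).1
  obtain ⟨S', rfl⟩ := Multiset.exists_cons_of_mem hboth.1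
  obtain ⟨T', rfl⟩ := Multiset.exists_cons_of_mem hboth.2
  congr 1
  refine ih _ ?_ (fun b hb => hS b (Multiset.mem_cons_of_mem hb))
    (fun b hb => hT b (Multiset.mem_cons_of_mem hb)) (fun q hq => ?_) rfl
  · simp only [Multiset.card_cons] at hn
    omega
  · simpa using h q hq

theorem Rep.unique {j : ℕ} {x : Cell K} {S T : Multiset (Item K)} (h : Rep j x S)
    (h' : Rep j x T) : S = T :=
  eq_of_sN_eq h.gt h'.gt fun q hq => (h.up q hq).1.symm.trans (h'.up q hq).1

theorem Rep.mono {j j' : ℕ} {x : Cell K} {S : Multiset (Item K)} (h : Rep j x S) (hj : j ≤ j') :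
    Rep j' x (S.filter fun a => j' < a.1) where
  gt a ha := (Multiset.mem_filter.1 ha).2
  up q hq := by
    have e : S = S.filter (fun a => j' < a.1) + S.filter fun a => ¬ j' < a.1 :=
      (Multiset.filter_add_not _ _).symm
    have z := sN_eq_zero (K := K) (S := S.filter fun a => ¬ j' < a.1) (q := q) fun a ha => by
      have := (Multiset.mem_filter.1 ha).2
      omega
    have e1 := congrArg (fun U => sN U q) e
    have e2 := congrArg (fun U => sP U q) e
    simp only [sN_add, sP_add, z.1, z.2, add_zero] at e1 e2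
    exact ⟨(h.up q (by omega)).1.trans e1, (h.up q (by omega)).2.trans e2⟩

theorem Rep.comp {j k : ℕ} {x y : Cell K} {S T : Multiset (Item K)} (hjk : j ≤ k)
    (hc : x.tgt j = y.src j) (h : Rep k x S) (h' : Rep k y T) :
    Rep k (Cell.comp j x y) (S + T) where
  gt a ha := (Multiset.mem_add.1 ha).elim (h.gt a) (h'.gt a)
  up q hq := by
    obtain ⟨a1, a2⟩ := Cell.comp_of_eq hc q
    rw [a1, a2, if_neg (by omega), if_neg (by omega), if_neg (by omega), (h.up q hq).1,
      (h'.up q hq).1, (h.up q hq).2, (h'.up q hq).2]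
    simp

/-! ## Minimal elements -/

theorem exists_bd_neg {q : ℕ} {v : K.B (q + 1) →₀ ℤ} (hv : ∀ b, 0 ≤ v b) {c : K.B q}
    (h : bd K q v c < 0) : ∃ b, 0 < v b ∧ K.d q b c < 0 := by
  by_contra hne
  push Not at hne
  refine not_le.2 h ?_
  rw [bd_apply, Finsupp.sum, Finsupp.coe_finsetSum, Finset.sum_apply]
  refine Finset.sum_nonneg fun b hb => ?_
  have : 0 < v b := lt_of_le_of_ne (hv b) (Finsupp.mem_support_iff.1 hb).symm
  simpa using mul_nonneg this.le (hne b this)

theorem exists_bd_pos {q : ℕ} {v : K.B (q + 1) →₀ ℤ} (hv : ∀ b, 0 ≤ v b) {c : K.B q}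
    (h : 0 < bd K q v c) : ∃ b, 0 < v b ∧ 0 < K.d q b c := by
  by_contra hne
  push Not at hne
  refine not_le.2 h ?_
  rw [bd_apply, Finsupp.sum, Finsupp.coe_finsetSum, Finset.sum_apply]
  refine Finset.sum_nonpos fun b hb => ?_
  have : 0 < v b := lt_of_le_of_ne (hv b) (Finsupp.mem_support_iff.1 hb).symm
  simpa using mul_nonpos_of_nonneg_of_nonpos this.le (hne b this)

/-- The faces of an atom precede and follow it. -/
theorem Good.exists_order (hK : Good K) :
    ∃ r : Item K → Item K → Prop, IsStrictTotalOrder _ r ∧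
      ∀ (a : Item K) (q : ℕ) (c : K.B q), q < a.1 →
        (atomNeg K a.2 q c ≠ 0 → r ⟨q, c⟩ a) ∧ (atomPos K a.2 q c ≠ 0 → r a ⟨q, c⟩) := by
  obtain ⟨r, hr, hd⟩ := hK.order
  refine ⟨r, hr, fun a => ?_⟩
  obtain ⟨p, b⟩ := a
  intro q
  induction hj : p - q using Nat.strong_induction_on generalizing q with
  | _ j ih =>
  intro c hq
  change q < p at hq
  have hn := (down_step hq (Finsupp.single b (1 : ℤ))).1
  have hp := (down_step hq (Finsupp.single b (1 : ℤ))).2
  constructor
  · intro h
    have h' : bd K q (atomNeg K b (q + 1)) c < 0 := by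
      rw [show atomNeg K b q = _ from hn, negP_apply] at h
      by_contra hge
      exact h (max_eq_right (neg_nonpos.2 (not_lt.1 hge)))
    obtain ⟨e, he, hde⟩ := exists_bd_neg (fun x => (atom_nonneg b (q + 1) x).1) h'
    have hce := (hd q e c).1 hde
    rcases (Nat.succ_le_of_lt hq).lt_or_eq with hlt | heq
    · exact hr.trans _ _ _ hce ((ih (p - (q + 1)) (by omega) (q + 1) rfl e hlt).1 he.ne')
    · obtain rfl : p = q + 1 := heq.symm
      rw [(atomNeg_self b).1] at he
      obtain rfl : e = b := by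
        by_contra hne
        rw [Finsupp.single_eq_of_ne hne] at he
        exact lt_irrefl _ he
      exact hce
  · intro h
    have h' : 0 < bd K q (atomPos K b (q + 1)) c := by
      rw [show atomPos K b q = _ from hp, posP_apply] at h
      by_contra hge
      exact h (max_eq_right (not_lt.1 hge))
    obtain ⟨e, he, hde⟩ := exists_bd_pos (fun x => (atom_nonneg b (q + 1) x).2) h'
    have hec := (hd q e c).2 hde
    rcases (Nat.succ_le_of_lt hq).lt_or_eq with hlt | heq
    · exact hr.trans _ _ _ ((ih (p - (q + 1)) (by omega) (q + 1) rfl e hlt).2 he.ne') hec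
    · obtain rfl : p = q + 1 := heq.symm
      rw [(atomNeg_self b).2] at he
      obtain rfl : e = b := by
        by_contra hne
        rw [Finsupp.single_eq_of_ne hne] at he
        exact lt_irrefl _ he
      exact hec

/-- An element which can be split off first. -/
def Elig (j : ℕ) (x : Cell K) (a : Item K) : Prop := ∀ c, atomNeg K a.2 j c ≤ x.neg j c

theorem Rep.exists_elig (hK : Good K) {j : ℕ} {x : Cell K} {S : Multiset (Item K)}
    (h : Rep j x S) (hS : S ≠ 0) :
    ∃ a ∈ S, ∀ (y : Cell K) (T : Multiset (Item K)), Rep j y T → T ≤ S → a ∈ T → Elig j y a := by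
  obtain ⟨r, hr, hatom⟩ := hK.exists_order
  have hmin : ∀ U : Multiset (Item K), U ≠ 0 → ∃ a ∈ U, ∀ b ∈ U, ¬ r b a := by
    intro U
    induction U using Multiset.induction_on with
    | empty => exact fun h => absurd rfl h
    | cons a U ih =>
      intro _
      rcases eq_or_ne U 0 with rfl | hU
      · exact ⟨a, by simp, by simpa using hr.irrefl a⟩
      · obtain ⟨m, hm, hle⟩ := ih hU
        by_cases ham : r a m
        · refine ⟨a, Multiset.mem_cons_self a U, fun b hb hba => ?_⟩
          rcases Multiset.mem_cons.1 hb with rfl | hb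
          · exact hr.irrefl _ hba
          · exact hle b hb (hr.trans _ _ _ hba ham)
        · exact ⟨m, Multiset.mem_cons_of_mem hm, fun b hb =>
            (Multiset.mem_cons.1 hb).elim (fun e => e ▸ ham) (hle b)⟩
  obtain ⟨a, ha, hle⟩ := hmin S hS
  refine ⟨a, ha, fun y T hy hTS haT c => ?_⟩
  rcases eq_or_ne (atomNeg K a.2 j c) 0 with h0 | h0
  · rw [h0]; exact y.neg_nonneg j c
  have hrca := (hatom a j c (h.gt a ha)).1 h0
  have hP : sP T j c = 0 := by
    have : ∀ U ≤ T, sP U j c = 0 := by
      intro U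
      induction U using Multiset.induction_on with
      | empty => simp
      | cons b U ih =>
        intro hU
        have hb : b ∈ T := Multiset.mem_of_le hU (Multiset.mem_cons_self b U)
        have hb0 : atomPos K b.2 j c = 0 := by
          by_contra hne
          exact hle b (Multiset.mem_of_le hTS hb)
            (hr.trans _ _ _ ((hatom b j c (hy.gt b hb)).2 hne) hrca)
        simp [hb0, ih ((Multiset.le_cons_self U b).trans hU)]
    exact this T le_rfl
  have e : y.pos j c - y.neg j c = sP T j c - sN T j c := by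
    rw [← Finsupp.sub_apply, ← Finsupp.sub_apply, ← y.bdry_neg j, (hy.up (j + 1) (by omega)).1]
    congr 1
    have : ∀ U ≤ T, bd K j (sN U (j + 1)) = sP U j - sN U j := by
      intro U
      induction U using Multiset.induction_on with
      | empty => simp
      | cons b U ih =>
        intro hU
        have hb : b ∈ T := Multiset.mem_of_le hU (Multiset.mem_cons_self b U)
        rw [sN_cons, map_add, (hK.bd_atom (hy.gt b hb) b.2).1,
          ih ((Multiset.le_cons_self U b).trans hU), sP_cons, sN_cons]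
        abel
    exact this T le_rfl
  have := (le_sN haT j c).1
  have := y.pos_nonneg j c
  omega

end Vale.Agent.P213.Steiner
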