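import Vale.Agent.P213.Steiner.Items

/-!
# P213: splitting cells of good complexes
-/

open CategoryTheory

noncomputable section

namespace Vale.Agent.P213.Steiner

variable {K : Cx}

theorem bd_sN (hK : Good K) {j : ℕ} {S : Multiset (Item K)} (hS : ∀ a ∈ S, j < a.1) :
    bd K j (sN S (j + 1)) = sP S j - sN S j ∧ bd K j (sP S (j + 1)) = sP S j - sN S j := by
  induction S using Multiset.induction_on with
  | empty => simp
  | cons a S ih =>
    obtain ⟨h1, h2⟩ := hK.bd_atom (hS a (Multiset.mem_cons_self a S)) a.2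
    obtain ⟨h3, h4⟩ := ih fun b hb => hS b (Multiset.mem_cons_of_mem hb)
    simp only [sN_cons, sP_cons, map_add, h1, h2, h3, h4]
    constructor <;> abel

theorem Rep.pos_eq (hK : Good K) {j : ℕ} {x : Cell K} {S : Multiset (Item K)} (h : Rep j x S) :
    x.pos j = x.neg j + sP S j - sN S j := by
  have := x.bdry_neg j
  rw [(h.up (j + 1) (Nat.lt_succ_self j)).1, (bd_sN hK h.gt).1] at this
  rw [add_sub_assoc, this]
  abel

theorem elig_single (hK : Good K) {j : ℕ} {y : Cell K} {a : Item K}
    (h : Rep j y ({a} : Multiset (Item K))) : Elig j y a := by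
  obtain ⟨b, hb, he⟩ := h.exists_elig hK (Multiset.singleton_ne_zero a)
  rw [Multiset.mem_singleton] at hb
  subst hb
  exact he y _ h le_rfl (Multiset.mem_singleton_self b)

theorem sN_singleton (a : Item K) (q : ℕ) :
    sN ({a} : Multiset (Item K)) q = atomNeg K a.2 q ∧
      sP ({a} : Multiset (Item K)) q = atomPos K a.2 q := by
  simp [sN, sP]

/-- Splitting off an eligible element. -/
theorem Rep.peel (hK : Good K) {j : ℕ} {x : Cell K} {a : Item K} {T : Multiset (Item K)}
    (h : Rep j x (a ::ₘ T)) (he : Elig j x a) :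
    ∃ y z : Cell K, y.tgt j = z.src j ∧ Cell.comp j y z = x ∧
      Rep j y ({a} : Multiset (Item K)) ∧ Rep j z T := by
  have ha : j < a.1 := h.gt a (Multiset.mem_cons_self a T)
  have hT : ∀ b ∈ T, j < b.1 := fun b hb => h.gt b (Multiset.mem_cons_of_mem hb)
  set m := x.neg j - atomNeg K a.2 j + atomPos K a.2 j with hm
  have hm0 : ∀ c, 0 ≤ m c := fun c => by
    have := he c
    have := (atom_nonneg a.2 j c).2
    simp only [hm, Finsupp.add_apply, Finsupp.sub_apply]
    omega
  have haug : j = 0 → ∀ q : ℕ, q = j → eps K (x.neg 0) - eps K (atomNeg K a.2 0)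
      + eps K (atomPos K a.2 0) = 1 := fun _ _ _ => by
    rw [x.aug_neg, hK.unit_neg, hK.unit_pos]
    rfl
  have hpos := h.pos_eq hK
  refine ⟨
    { neg := fun q => if q ≤ j then x.neg q else atomNeg K a.2 q
      pos := fun q => if q < j then x.pos q else if e : q = j then e ▸ m else atomPos K a.2 q
      neg_nonneg := fun q c => by
        split_ifs
        exacts [x.neg_nonneg q c, (atom_nonneg a.2 q c).1]
      pos_nonneg := fun q c => by
        split_ifs with h1 h2
        · exact x.pos_nonneg q c
        · subst h2; exact hm0 c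
        · exact (atom_nonneg a.2 q c).2
      bounded := ⟨max (j + 1) (a.1 + 1), fun q hq => by
        obtain ⟨h1, h2⟩ := down_above (show a.1 < q by omega) (Finsupp.single a.2 (1 : ℤ))
        simp [show ¬ q ≤ j by omega, show ¬ q < j by omega, show ¬ q = j by omega, atomNeg,
          atomPos, h1, h2]⟩
      aug_neg := by simp [x.aug_neg]
      aug_pos := by
        rcases eq_or_ne j 0 with rfl | hj
        · simp [hm, x.aug_neg, hK.unit_neg, hK.unit_pos]
        · simp [show 0 < j by omega, x.aug_pos]
      bdry_neg := fun q => ?_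
      bdry_pos := fun q => ?_ },
    { neg := fun q => if q < j then x.neg q else if e : q = j then e ▸ m else sN T q
      pos := fun q => if q ≤ j then x.pos q else sP T q
      neg_nonneg := fun q c => by
        split_ifs with h1 h2
        · exact x.neg_nonneg q c
        · subst h2; exact hm0 c
        · exact (sN_nonneg T q c).1
      pos_nonneg := fun q c => by
        split_ifs
        exacts [x.pos_nonneg q c, (sN_nonneg T q c).2]
      bounded := by
        obtain ⟨N, hN⟩ := x.bounded
        refine ⟨max (j + 1) N, fun q hq => ?_⟩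
        obtain ⟨h1, h2⟩ := h.up q (by omega)
        obtain ⟨h3, h4⟩ := hN q (by omega)
        rw [h3, sN_cons] at h1
        rw [h4, sP_cons] at h2
        simp only [show ¬ q ≤ j by omega, show ¬ q < j by omega, show ¬ q = j by omega, if_false,
          dite_false]
        constructor <;> ext c
        · have := congrArg (fun v : K.B q →₀ ℤ => v c) h1
          have := (sN_nonneg T q c).1
          have := (atom_nonneg a.2 q c).1
          simp only [Finsupp.add_apply, Finsupp.coe_zero, Pi.zero_apply] at *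
          omega
        · have := congrArg (fun v : K.B q →₀ ℤ => v c) h2
          have := (sN_nonneg T q c).2
          have := (atom_nonneg a.2 q c).2
          simp only [Finsupp.add_apply, Finsupp.coe_zero, Pi.zero_apply] at *
          omega
      aug_neg := by
        rcases eq_or_ne j 0 with rfl | hj
        · simp [hm, x.aug_neg, hK.unit_neg, hK.unit_pos]
        · simp [show 0 < j by omega, x.aug_neg]
      aug_pos := by simp [x.aug_pos]
      bdry_neg := fun q => ?_
      bdry_pos := fun q => ?_ }, ?_, ?_, ?_, ?_⟩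
  · rcases lt_trichotomy q j with hq | rfl | hq
    · simp [hq, hq.le, show q + 1 ≤ j by omega, x.bdry_neg]
    · simp [hm, (hK.bd_atom ha a.2).1]
      abel
    · simp [show ¬ q ≤ j by omega, show ¬ q + 1 ≤ j by omega, show ¬ q < j by omega,
        show ¬ q = j by omega]
      exact (atom hK a.2).bdry_neg q
  · rcases lt_trichotomy q j with hq | rfl | hq
    · rcases (show q + 1 ≤ j by omega).lt_or_eq with h' | h'
      · simp [h', hq, hq.le, x.bdry_pos]
      · subst h'
        simp [hm, x.bdry_neg, map_sub, (hK.bd_atom (show q < a.1 by omega) a.2).1,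
          (hK.bd_atom (show q < a.1 by omega) a.2).2]
    · simp [hm, (hK.bd_atom ha a.2).2]
      abel
    · simp [show ¬ q ≤ j by omega, show ¬ q < j by omega, show ¬ q + 1 < j by omega,
        show ¬ q + 1 = j by omega, show ¬ q = j by omega]
      exact (atom hK a.2).bdry_pos q
  · rcases lt_trichotomy q j with hq | rfl | hq
    · rcases (show q + 1 ≤ j by omega).lt_or_eq with h' | h'
      · simp [h', hq, hq.le, x.bdry_neg]
      · subst h'
        simp [hm, x.bdry_neg, map_sub, (hK.bd_atom (show q < a.1 by omega) a.2).1,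
          (hK.bd_atom (show q < a.1 by omega) a.2).2]
    · simp [hm, (bd_sN hK hT).1, hpos]
      abel
    · simp [show ¬ q ≤ j by omega, show ¬ q < j by omega, show ¬ q + 1 < j by omega,
        show ¬ q + 1 = j by omega, show ¬ q = j by omega]
      have h1 := x.bdry_neg q
      rw [(h.up q hq).1, (h.up q hq).2, (h.up (q + 1) (by omega)).1, sN_cons, sN_cons, sP_cons,
        map_add, show bd K q (atomNeg K a.2 (q + 1)) = _ from (atom hK a.2).bdry_neg q] at h1
      simp only [atom_neg, atom_pos] at h1
      rw [eq_comm, ← sub_eq_zero] at h1 ⊢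
      rw [← h1]
      abel
  · rcases lt_trichotomy q j with hq | rfl | hq
    · simp [hq, hq.le, show q + 1 ≤ j by omega, x.bdry_pos]
    · simp [hm, (bd_sN hK hT).2, hpos]
      abel
    · simp [show ¬ q ≤ j by omega, show ¬ q + 1 ≤ j by omega, show ¬ q < j by omega,
        show ¬ q = j by omega]
      have h1 := x.bdry_pos q
      rw [(h.up q hq).1, (h.up q hq).2, (h.up (q + 1) (by omega)).2, sP_cons, sN_cons, sP_cons,
        map_add, show bd K q (atomPos K a.2 (q + 1)) = _ from (atom hK a.2).bdry_pos q] at h1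
      simp only [atom_neg, atom_pos] at h1
      rw [eq_comm, ← sub_eq_zero] at h1 ⊢
      rw [← h1]
      abel
  · refine Cell.ext' fun q => ?_
    rcases lt_trichotomy q j with hq | rfl | hq
    · simp [Cell.tgt, Cell.src, hq, hq.le]
    · simp [Cell.tgt, Cell.src]
    · simp [Cell.tgt, Cell.src, show ¬ q ≤ j by omega, show ¬ q < j by omega,
        show ¬ q = j by omega]
  · refine Cell.ext' fun q => ?_
    rw [Cell.comp, dif_pos]
    · rcases lt_trichotomy q j with hq | rfl | hq
      · simp [hq, hq.le]
      · simp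
      · simp [show ¬ q ≤ j by omega, show ¬ q < j by omega, show ¬ q = j by omega,
          (h.up q hq).1, (h.up q hq).2]
    · refine Cell.ext' fun q => ?_
      rcases lt_trichotomy q j with hq | rfl | hq
      · simp [Cell.tgt, Cell.src, hq, hq.le]
      · simp [Cell.tgt, Cell.src]
      · simp [Cell.tgt, Cell.src, show ¬ q ≤ j by omega, show ¬ q < j by omega,
          show ¬ q = j by omega]
  · exact ⟨fun q hq => by simp [show ¬ q ≤ j by omega, show ¬ q < j by omega,
      show ¬ q = j by omega, (sN_singleton a q).1, (sN_singleton a q).2],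
      fun b hb => Multiset.mem_singleton.1 hb ▸ ha⟩
  · exact ⟨fun q hq => by simp [show ¬ q ≤ j by omega, show ¬ q < j by omega,
      show ¬ q = j by omega], hT⟩

/-- A factorisation is determined by the upper part of its first factor. -/
theorem comp_cancel {j : ℕ} {y z y' z' : Cell K} (hc : y.tgt j = z.src j)
    (hc' : y'.tgt j = z'.src j) (e : Cell.comp j y z = Cell.comp j y' z')
    {U : Multiset (Item K)} (hU : Rep j y U) (hU' : Rep j y' U) : y = y' ∧ z = z' := by
  have hn : ∀ q, (Cell.comp j y z).neg q = (Cell.comp j y' z').neg q := fun q => by rw [e]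
  have hp : ∀ q, (Cell.comp j y z).pos q = (Cell.comp j y' z').pos q := fun q => by rw [e]
  simp only [(Cell.comp_of_eq hc _).1, (Cell.comp_of_eq hc' _).1] at hn
  simp only [(Cell.comp_of_eq hc _).2, (Cell.comp_of_eq hc' _).2] at hp
  have hy : y = y' := Cell.ext' fun q => by
    have h1 := hn q
    have h2 := hp q
    rcases lt_trichotomy q j with hq | hq | hq
    · rw [if_pos hq.le, if_pos hq.le] at h1
      rw [if_pos hq, if_pos hq] at h2
      exact ⟨h1, h2⟩
    · subst hq
      simp only [le_refl, if_true] at h1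
      refine ⟨h1, ?_⟩
      have b1 := y.bdry_neg q
      have b2 := y'.bdry_neg q
      rw [(hU.up (q + 1) (by omega)).1] at b1
      rw [(hU'.up (q + 1) (by omega)).1, b1, h1] at b2
      exact sub_left_inj.1 b2
    · exact ⟨(hU.up q hq).1.trans (hU'.up q hq).1.symm,
        (hU.up q hq).2.trans (hU'.up q hq).2.symm⟩
  subst hy
  refine ⟨rfl, Cell.ext' fun q => ?_⟩
  obtain ⟨hj, hlow⟩ := Cell.eq_of_tgt_eq_src j y z hc
  obtain ⟨hj', hlow'⟩ := Cell.eq_of_tgt_eq_src j y z' hc'
  have h1 := hn q
  have h2 := hp q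
  rcases lt_trichotomy q j with hq | rfl | hq
  · exact ⟨(hlow q hq).1.symm.trans (hlow' q hq).1, (hlow q hq).2.symm.trans (hlow' q hq).2⟩
  · simp only [lt_irrefl, if_false, if_true] at h2
    exact ⟨hj.symm.trans hj', h2⟩
  · simp only [show ¬ q ≤ j by omega, show ¬ q < j by omega, show ¬ q = j by omega, if_false] at h1 h2
    exact ⟨add_left_cancel h1, add_left_cancel h2⟩

theorem src_self_of_comp {j n : ℕ} (hj : j ≤ n) {y z : Cell K} (hc : y.tgt j = z.src j)
    (h : (Cell.comp j y z).src n = Cell.comp j y z) : y.src n = y ∧ z.src n = z := by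
  rw [src_eq_self_iff] at h
  have key : ∀ q, n < q → (y.neg q = 0 ∧ y.pos q = 0) ∧ (z.neg q = 0 ∧ z.pos q = 0) := by
    intro q hq
    obtain ⟨h1, h2⟩ := h q hq
    obtain ⟨a1, a2⟩ := Cell.comp_of_eq hc q
    rw [a1, if_neg (by omega)] at h1
    rw [a2, if_neg (by omega), if_neg (by omega)] at h2
    have e : ∀ (u v : K.B q →₀ ℤ), (∀ c, 0 ≤ u c) → (∀ c, 0 ≤ v c) → u + v = 0 →
        u = 0 ∧ v = 0 := by
      intro u v hu hv huv
      have hc : ∀ c, u c = 0 ∧ v c = 0 := fun c => by
        have := congrArg (fun w : K.B q →₀ ℤ => w c) huv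
        simp only [Finsupp.add_apply, Finsupp.coe_zero, Pi.zero_apply] at this
        have := hu c
        have := hv c
        omega
      exact ⟨Finsupp.ext fun c => (hc c).1, Finsupp.ext fun c => (hc c).2⟩
    have e1 := e _ _ (y.neg_nonneg q) (z.neg_nonneg q) h1
    have e2 := e _ _ (y.pos_nonneg q) (z.pos_nonneg q) h2
    exact ⟨⟨e1.1, e2.1⟩, ⟨e1.2, e2.2⟩⟩
  exact ⟨(src_eq_self_iff n y).2 fun q hq => (key q hq).1,
    (src_eq_self_iff n z).2 fun q hq => (key q hq).2⟩

/-- Above level `j` the cell looks like a single atom or is trivial. -/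
def Slim (j : ℕ) (x : Cell K) : Prop := ∃ S, Rep j x S ∧ Multiset.card S ≤ 1

theorem Slim.mono {j j' : ℕ} {x : Cell K} (h : Slim j x) (hj : j ≤ j') : Slim j' x := by
  obtain ⟨S, hS, hc⟩ := h
  exact ⟨_, hS.mono hj, (Multiset.card_le_card (Multiset.filter_le _ S)).trans hc⟩

theorem Slim.split (hK : Good K) {j j' : ℕ} (hj : j ≤ j') {y z : Cell K}
    (hc : y.tgt j = z.src j) (h : Slim j' (Cell.comp j y z)) :
    (y.src j' = y ∨ z.src j' = z) ∧ Slim j' y ∧ Slim j' z := by
  obtain ⟨S, hS, hcard⟩ := h
  have up : ∀ q, j' < q → y.neg q + z.neg q = sN S q ∧ y.pos q + z.pos q = sP S q := by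
    intro q hq
    obtain ⟨a1, a2⟩ := Cell.comp_of_eq hc q
    obtain ⟨s1, s2⟩ := hS.up q hq
    rw [a1, if_neg (by omega)] at s1
    rw [a2, if_neg (by omega), if_neg (by omega)] at s2
    exact ⟨s1, s2⟩
  have top : ∀ w : Cell K, (w = y ∨ w = z) → w.src j' ≠ w →
      ∃ a, S = {a} ∧ 0 < w.neg a.1 a.2 := by
    intro w hw hne
    obtain ⟨p, hp, -, hpe, hp0⟩ := exists_top hne
    obtain ⟨c, hc0⟩ := Finsupp.ne_iff.1 hp0
    simp only [Finsupp.coe_zero, Pi.zero_apply] at hc0
    have hpos : 0 < w.neg p c := lt_of_le_of_ne (w.neg_nonneg p c) (Ne.symm hc0)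
    have hpos' : 0 < w.pos p c := hpe ▸ hpos
    obtain ⟨u1, u2⟩ := up p hp
    have := congrArg (fun v : K.B p →₀ ℤ => v c) u1
    have := congrArg (fun v : K.B p →₀ ℤ => v c) u2
    have := y.neg_nonneg p c
    have := y.pos_nonneg p c
    have := z.neg_nonneg p c
    have := z.pos_nonneg p c
    have hN : 0 < sN S p c ∧ 0 < sP S p c := by
      rcases hw with rfl | rfl <;> simp only [Finsupp.add_apply] at * <;> omega
    obtain ⟨a, rfl⟩ : ∃ a, S = {a} := by
      refine Multiset.card_eq_one.1 (le_antisymm hcard (Multiset.card_pos.2 ?_))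
      rintro rfl
      simp at hN
    rw [(sN_singleton a p).1, (sN_singleton a p).2] at hN
    refine ⟨a, rfl, ?_⟩
    obtain ⟨r, b⟩ := a
    rcases lt_trichotomy p r with hlt | rfl | hlt
    · simp only at hN
      rcases hK.atom_disjoint hlt b c with h0 | h0 <;> omega
    · rw [(atomNeg_self b).1] at hN
      obtain rfl : c = b := by
        by_contra hne'
        rw [Finsupp.single_eq_of_ne hne'] at hN
        exact lt_irrefl _ hN.1
      exact hpos
    · simp [atomNeg, down_above hlt] at hN
  have h1 : y.src j' = y ∨ z.src j' = z := by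
    by_contra hne
    push Not at hne
    obtain ⟨a, rfl, ha⟩ := top y (.inl rfl) hne.1
    obtain ⟨b, hb, hb'⟩ := top z (.inr rfl) hne.2
    obtain rfl := Multiset.singleton_inj.1 hb
    have ha' := hS.gt a (Multiset.mem_singleton_self a)
    have := congrArg (fun v : K.B a.1 →₀ ℤ => v a.2) (up a.1 ha').1
    simp only [Finsupp.add_apply, (sN_singleton a a.1).1, (atomNeg_self a.2).1,
      Finsupp.single_eq_same] at this
    omega
  refine ⟨h1, ?_⟩
  have h0 : Multiset.card (0 : Multiset (Item K)) ≤ 1 := by simp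
  rcases h1 with h2 | h2
  · refine ⟨⟨0, Rep.zero_iff.2 h2, h0⟩, ⟨S, ⟨fun q hq => ?_, hS.gt⟩, hcard⟩⟩
    have := (src_eq_self_iff j' y).1 h2 q hq
    simpa [this.1, this.2] using up q hq
  · refine ⟨⟨S, ⟨fun q hq => ?_, hS.gt⟩, hcard⟩, ⟨0, Rep.zero_iff.2 h2, h0⟩⟩
    have := (src_eq_self_iff j' z).1 h2 q hq
    simpa [this.1, this.2] using up q hq

theorem Slim.exists_rep (hK : Good K) {i : ℕ} {x : Cell K} (h : Slim (i + 1) x) :
    ∃ S, Rep i x S := by
  obtain ⟨T, hT, hcard⟩ := h
  have hd : ∀ c, sP T (i + 1) c = 0 ∨ sN T (i + 1) c = 0 := fun c => by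
    rcases eq_or_ne T 0 with rfl | hne
    · simp
    · obtain ⟨a, rfl⟩ := Multiset.card_eq_one.1 (le_antisymm hcard (Multiset.card_pos.2 hne))
      rw [(sN_singleton a _).1, (sN_singleton a _).2]
      exact hK.atom_disjoint (hT.gt a (Multiset.mem_singleton_self a)) a.2 c
  have hpos := hT.pos_eq hK
  set w := x.neg (i + 1) - sN T (i + 1) with hw
  have hw0 : ∀ c, 0 ≤ w c := fun c => by
    have := congrArg (fun v : K.B (i + 1) →₀ ℤ => v c) hpos
    simp only [hw, Finsupp.add_apply, Finsupp.sub_apply] at *
    have := x.neg_nonneg (i + 1) c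
    have := x.pos_nonneg (i + 1) c
    rcases hd c with h0 | h0 <;> omega
  refine ⟨T + items w, ⟨fun q hq => ?_, fun a ha => ?_⟩⟩
  · rcases (Nat.succ_le_of_lt hq).lt_or_eq with hlt | rfl
    · have z := sN_eq_zero (S := items w) (q := q) fun a ha => by rw [mem_items ha]; exact hlt
      simp [z.1, z.2, hT.up q hlt]
    · rw [sN_add, sP_add, (sN_items hw0).1, (sN_items hw0).2, hpos, hw]
      constructor <;> abel
  · rcases Multiset.mem_add.1 ha with ha | ha
    · have := hT.gt a ha; omega
    · have := mem_items ha; omega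

theorem exists_level (hK : Good K) (x : Cell K) :
    Slim 0 x ∨ ∃ i S, Slim (i + 1) x ∧ Rep i x S ∧ 2 ≤ Multiset.card S := by
  classical
  have hex : ∃ i, Slim i x := by
    obtain ⟨N, hN⟩ := x.bounded
    exact ⟨N, 0, Rep.zero_iff.2 ((src_eq_self_iff N x).2 fun q hq => hN q hq.le), by simp⟩
  rcases hi : Nat.find hex with _ | i
  · exact .inl (hi ▸ Nat.find_spec hex)
  · have hs : Slim (i + 1) x := hi ▸ Nat.find_spec hex
    obtain ⟨S, hS⟩ := hs.exists_rep hK
    refine .inr ⟨i, S, hs, hS, ?_⟩
    by_contra hc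
    exact Nat.find_min hex (by omega : i < Nat.find hex) ⟨S, hS, by omega⟩

theorem eps_eq_zero_of_nonneg (hK : Good K) {v : K.B 0 →₀ ℤ} (hv : ∀ c, 0 ≤ v c)
    (h : eps K v = 0) : v = 0 := by
  rw [eps_apply, Finsupp.sum] at h
  simp only [hK.e_eq_one, mul_one] at h
  ext c
  by_contra hne
  exact hne ((Finset.sum_eq_zero_iff_of_nonneg fun a _ => hv a).1 h c
    (Finsupp.mem_support_iff.2 hne))

/-- A cell which is slim at level `0` is an atom. -/
theorem Slim.eq_atom (hK : Good K) {x : Cell K} (h : Slim 0 x) :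
    ∃ (p : ℕ) (b : K.B p), x = atom hK b := by
  obtain ⟨S, hS, hcard⟩ := h
  have hpos := hS.pos_eq hK
  rcases eq_or_ne S 0 with rfl | hne
  · simp only [sP_zero, sN_zero, add_zero, sub_zero] at hpos
    obtain ⟨b, hb⟩ : ∃ b, 0 < x.neg 0 b := by
      by_contra hno
      push Not at hno
      have : x.neg 0 = 0 := Finsupp.ext fun c => le_antisymm (hno c) (x.neg_nonneg 0 c)
      have h1 := x.aug_neg
      rw [this, map_zero] at h1
      exact absurd h1 (by decide)
    have e : x.neg 0 = Finsupp.single b 1 := by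
      refine sub_eq_zero.1 (eps_eq_zero_of_nonneg hK (fun c => ?_) ?_)
      · rw [Finsupp.sub_apply]
        rcases eq_or_ne c b with rfl | hcb
        · rw [Finsupp.single_eq_same]; omega
        · rw [Finsupp.single_eq_of_ne hcb, sub_zero]; exact x.neg_nonneg 0 c
      · rw [map_sub, x.aug_neg, eps_single, hK.e_eq_one]
        simp
    refine ⟨0, b, Cell.ext' fun q => ?_⟩
    rcases Nat.eq_zero_or_pos q with rfl | hq
    · simp [hpos, e, atomNeg_self b]
    · obtain ⟨h1, h2⟩ := down_above hq (Finsupp.single b (1 : ℤ))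
      simpa [atomNeg, atomPos, h1, h2] using hS.up q hq
  · obtain ⟨a, rfl⟩ := Multiset.card_eq_one.1 (le_antisymm hcard (Multiset.card_pos.2 hne))
    rw [(sN_singleton a 0).1, (sN_singleton a 0).2] at hpos
    have e : x.neg 0 = atomNeg K a.2 0 := by
      refine sub_eq_zero.1 (eps_eq_zero_of_nonneg hK (fun c => ?_) ?_)
      · have := elig_single hK hS c
        rw [Finsupp.sub_apply]
        omega
      · rw [map_sub, x.aug_neg, hK.unit_neg, sub_self]
    refine ⟨a.1, a.2, Cell.ext' fun q => ?_⟩
    rcases Nat.eq_zero_or_pos q with rfl | hq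
    · simp [hpos, e]
    · simpa [(sN_singleton a q).1, (sN_singleton a q).2] using hS.up q hq

theorem atom_rep (hK : Good K) {p : ℕ} (b : K.B p) (h : 0 < p) :
    Rep 0 (atom hK b) ({⟨p, b⟩} : Multiset (Item K)) :=
  ⟨fun q _ => by simp [(sN_singleton (⟨p, b⟩ : Item K) q).1, (sN_singleton (⟨p, b⟩ : Item K) q).2],
    fun a ha => Multiset.mem_singleton.1 ha ▸ h⟩

/-! ## The size of a cell -/

/-- The common part of the two chains. -/
def inner (x : Cell K) (q : ℕ) : K.B q →₀ ℕ :=
  Finsupp.zipWith (fun a b => (min a b).toNat) (by simp) (x.neg q) (x.pos q)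

/-- The size vector. -/
def size (x : Cell K) : ℕ →₀ ℕ :=
  Finsupp.onFinset (Finset.range (Classical.choose x.bounded)) (fun q => (inner x q).degree)
    fun q hq => by
      by_contra hmem
      obtain ⟨h1, h2⟩ := Classical.choose_spec x.bounded q (by simpa using hmem)
      exact hq (by
        rw [show inner x q = 0 from Finsupp.ext fun c => by simp [inner, h1, h2]]
        simp)

theorem size_apply (x : Cell K) (q : ℕ) : size x q = (inner x q).degree := rfl

/-- The colexicographic order of size vectors. -/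
def Smaller (y x : Cell K) : Prop := Finsupp.Lex (· > ·) (· < ·) (size y) (size x)

theorem smaller_wf : WellFounded (Smaller (K := K)) :=
  InvImage.wf _ (Finsupp.Lex.wellFounded' (fun _ => Nat.not_lt_zero _) wellFounded_lt
    (wellFounded_lt (α := ℕ)))

theorem smaller_of_comp {j : ℕ} {y z : Cell K} (hc : y.tgt j = z.src j) (hy : y.src j ≠ y)
    (hz : z.src j ≠ z) :
    Smaller y (Cell.comp j y z) ∧ Smaller z (Cell.comp j y z) := by
  classical
  have hle : ∀ q, j < q → size y q + size z q ≤ size (Cell.comp j y z) q := by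
    intro q hq
    obtain ⟨a1, a2⟩ := Cell.comp_of_eq hc q
    rw [if_neg (by omega)] at a1
    rw [if_neg (by omega), if_neg (by omega)] at a2
    have hpt : inner y q + inner z q ≤ inner (Cell.comp j y z) q := fun c => by
      simp only [inner, Finsupp.zipWith_apply, Finsupp.add_apply, a1, a2]
      have := y.neg_nonneg q c
      have := y.pos_nonneg q c
      have := z.neg_nonneg q c
      have := z.pos_nonneg q c
      omega
    obtain ⟨d, hd⟩ := exists_add_of_le hpt
    simp only [size_apply, hd, map_add]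
    omega
  have main : ∀ u w : Cell K, (∀ q, j < q → size u q + size w q ≤ size (Cell.comp j y z) q) →
      w.src j ≠ w → Smaller u (Cell.comp j y z) := by
    intro u w h hw
    obtain ⟨p, hp, -, hpe, hp0⟩ := exists_top hw
    have hpos : 0 < size w p := by
      obtain ⟨c, hc0⟩ := Finsupp.ne_iff.1 hp0
      simp only [Finsupp.coe_zero, Pi.zero_apply] at hc0
      have : 0 < inner w p c := by
        simp only [inner, Finsupp.zipWith_apply, ← hpe, min_self]
        have := w.neg_nonneg p c
        omega
      refine Nat.pos_of_ne_zero fun h0 => ?_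
      rw [size_apply, Finsupp.degree_eq_zero_iff] at h0
      simp [h0] at this
    set D := ((size u).support ∪ (size (Cell.comp j y z)).support).filter
      fun q => size u q ≠ size (Cell.comp j y z) q
    have hpD : p ∈ D := by
      have := h p hp
      simp only [D, Finset.mem_filter, Finset.mem_union, Finsupp.mem_support_iff]
      exact ⟨.inr (by omega), by omega⟩
    refine Finsupp.lex_def.2 ⟨D.max' ⟨p, hpD⟩, fun d hd => ?_, ?_⟩
    · by_contra hne
      have : d ∈ D := by
        simp only [D, Finset.mem_filter, Finset.mem_union, Finsupp.mem_support_iff]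
        exact ⟨by omega, hne⟩
      exact absurd (D.le_max' d this) (by omega)
    · have h1 := (Finset.mem_filter.1 (D.max'_mem ⟨p, hpD⟩)).2
      have := h _ (hp.trans_le (D.le_max' p hpD))
      omega
  exact ⟨main y z hle hz, main z y (fun q hq => (add_comm _ _).trans_le (hle q hq)) hy⟩

end Vale.Agent.P213.Steiner
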